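import Mathlib

/-!
# P237, sharp route in `ℝ³`: the two elementary inequalities

Notation: `λ = 237/1000`, weight `w t = (3π²/32 − λ) + 3λ t²`. For a tangent line to the circle at
`(q, c) = (2τ/(1+τ²), (1−τ²)/(1+τ²))` the mean of `y·w` along the tangent segment of length `r`,
weighted by the distance from the tangency point, is `qbar τ r`.
-/

open Real

namespace Vale.Agent.P237.Sharp.OneD3

/-- The multiplier. -/
noncomputable def lam : ℝ := 237 / 1000

/-- The constant part of the weight. -/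
noncomputable def wA : ℝ := 3 * π ^ 2 / 32 - lam

/-- The quadratic part of the weight. -/
noncomputable def wB : ℝ := 3 * lam

/-- Cosine of the tangency angle. -/
noncomputable def cc (τ : ℝ) : ℝ := (1 - τ ^ 2) / (1 + τ ^ 2)

/-- Sine of the tangency angle. -/
noncomputable def ss (τ : ℝ) : ℝ := 2 * τ / (1 + τ ^ 2)

/-- Twice the normalised `ξ`-weighted integral of `(c + qξ)·w(q − cξ)` over `[0,r]`. -/
noncomputable def qbar (τ r : ℝ) : ℝ :=
  wA * (cc τ + 2 / 3 * (ss τ * r)) +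
    wB * (cc τ * ss τ ^ 2 + 2 / 3 * r * (ss τ ^ 3 - 2 * ss τ * cc τ ^ 2) +
      r ^ 2 / 2 * (cc τ ^ 3 - 2 * ss τ ^ 2 * cc τ) + 2 / 5 * r ^ 3 * (ss τ * cc τ ^ 2))

/-- Caps whose left tangency lies in `[0,1]`. -/
def MidIneq : Prop :=
  ∀ τ r : ℝ, 0 ≤ r → r ≤ τ → τ ≤ 1 → qbar τ r + 1 / 5000 ≤ π / 4 + r - arctan r

/-- Caps containing the point `(0, c + r q)`, of height at most `37/20`. -/
def HeadIneq : Prop :=
  ∀ τ r : ℝ, 0 ≤ τ → τ ≤ 1 → τ ≤ r → r * cc τ ≤ ss τ → cc τ + r * ss τ ≤ 37 / 20 →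
    qbar τ r + 1 / 5000 ≤
      π / 4 + ((cc τ + r * ss τ) * (ss τ - r * cc τ) + r) / 2 - arctan τ

end Vale.Agent.P237.Sharp.OneD3
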