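import Mathlib
import Vale.Agent.P237.Sharp.OneD3.Spec

/-!
# P237, sharp route in `ℝ³`: the profiles of caps

The cap with parameters `(σ, b)` is the least concave profile above the quarter circle that reaches
the meeting point of the tangent lines at angles `σ` and `b` (for `σ < 0`: of the horizontal line
`y = 1 - σ` and the tangent line at angle `b`). Its profile is the minimum of a left and a right part.
-/

open MeasureTheory Set Real

namespace Vale.Agent.P237.Sharp.OneD3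

/-- The quarter circle. -/
noncomputable def circ (t : ℝ) : ℝ := √(1 - t ^ 2)

/-- The tangent line at angle `θ`. -/
noncomputable def tang (θ t : ℝ) : ℝ := (1 - t * sin θ) / cos θ

/-- Right part of a cap. -/
noncomputable def capR (b t : ℝ) : ℝ := tang (max b (arcsin t)) t

/-- Left part of a cap. -/
noncomputable def capL (σ t : ℝ) : ℝ := if σ < 0 then 1 - σ else tang (min σ (arcsin t)) t

/-- The profile of a cap. -/
noncomputable def cap (σ b t : ℝ) : ℝ := min (capL σ t) (capR b t)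

lemma circ_nonneg (t : ℝ) : 0 ≤ circ t := sqrt_nonneg _

lemma circ_le_one {t : ℝ} : circ t ≤ 1 := by
  rw [circ, Real.sqrt_le_one]; nlinarith [sq_nonneg t]

lemma tang_arcsin {t : ℝ} (h0 : 0 ≤ t) (h1 : t ≤ 1) : tang (arcsin t) t = circ t := by
  rw [tang, sin_arcsin (by linarith) h1, cos_arcsin, circ]
  rcases h1.eq_or_lt with rfl | h
  · simp
  · have hp : 0 < 1 - t ^ 2 := by nlinarith
    rw [div_eq_iff (Real.sqrt_pos.2 hp).ne', Real.mul_self_sqrt hp.le]; ring

lemma circ_le_tang {θ t : ℝ} (h0 : 0 ≤ t) (h1 : t ≤ 1) (hc : 0 < cos θ) :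
    circ t ≤ tang θ t := by
  rw [tang, le_div_iff₀ hc, circ]
  have hu := Real.mul_self_sqrt (show 0 ≤ 1 - t ^ 2 by nlinarith)
  nlinarith [sq_nonneg (√(1 - t ^ 2) - cos θ), sq_nonneg (t - sin θ), sin_sq_add_cos_sq θ]

lemma hasDerivAt_tang {θ t : ℝ} (hc : cos θ ≠ 0) :
    HasDerivAt (fun θ => tang θ t) ((sin θ - t) / cos θ ^ 2) θ := by
  have h1 : HasDerivAt (fun θ => 1 - t * sin θ) (-(t * cos θ)) θ := by
    simpa using ((hasDerivAt_sin θ).const_mul t).const_sub 1
  refine (h1.div (hasDerivAt_cos θ) hc).congr_deriv ?_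
  congr 1
  have := sin_sq_add_cos_sq θ
  linear_combination (-t) * this

lemma cos_pos_of {θ : ℝ} (h0 : 0 ≤ θ) (h : θ < π / 2) : 0 < cos θ :=
  cos_pos_of_mem_Ioo ⟨by linarith [Real.pi_pos], h⟩

/-- The tangent value grows beyond the tangency angle of the abscissa. -/
lemma tang_monotoneOn {t : ℝ} (h0 : 0 ≤ t) (h1 : t ≤ 1) :
    MonotoneOn (fun θ => tang θ t) (Ico (arcsin t) (π / 2)) := by
  have ha := arcsin_nonneg.2 h0
  have hd : ∀ θ ∈ Ico (arcsin t) (π / 2),
      HasDerivAt (fun θ => tang θ t) ((sin θ - t) / cos θ ^ 2) θ := fun θ hθ =>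
    hasDerivAt_tang (cos_pos_of (ha.trans hθ.1) hθ.2).ne'
  refine monotoneOn_of_hasDerivWithinAt_nonneg (convex_Ico _ _)
    (fun θ hθ => (hd θ hθ).continuousAt.continuousWithinAt)
    (fun θ hθ => (hd θ (interior_subset hθ)).hasDerivWithinAt) fun θ hθ => ?_
  have hθ' := interior_subset hθ
  refine div_nonneg (sub_nonneg.2 ?_) (sq_nonneg _)
  rw [← sin_arcsin (by linarith : -1 ≤ t) h1]
  exact sin_le_sin_of_le_of_le_pi_div_two (by linarith [Real.pi_pos]) hθ'.2.le hθ'.1

/-- The tangent value falls towards the tangency angle of the abscissa. -/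
lemma tang_antitoneOn {t : ℝ} (h0 : 0 ≤ t) (h1 : t < 1) :
    AntitoneOn (fun θ => tang θ t) (Icc 0 (arcsin t)) := by
  have hlt : arcsin t < π / 2 := arcsin_lt_pi_div_two.2 h1
  have hd : ∀ θ ∈ Icc 0 (arcsin t),
      HasDerivAt (fun θ => tang θ t) ((sin θ - t) / cos θ ^ 2) θ := fun θ hθ =>
    hasDerivAt_tang (cos_pos_of hθ.1 (hθ.2.trans_lt hlt)).ne'
  refine antitoneOn_of_hasDerivWithinAt_nonpos (convex_Icc _ _)
    (fun θ hθ => (hd θ hθ).continuousAt.continuousWithinAt)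
    (fun θ hθ => (hd θ (interior_subset hθ)).hasDerivWithinAt) fun θ hθ => ?_
  have hθ' := interior_subset hθ
  refine div_nonpos_of_nonpos_of_nonneg (sub_nonpos.2 ?_) (sq_nonneg _)
  rw [← sin_arcsin (by linarith : -1 ≤ t) h1.le]
  exact sin_le_sin_of_le_of_le_pi_div_two (by linarith [Real.pi_pos, hθ'.1]) hlt.le hθ'.2

lemma tang_zero (t : ℝ) : tang 0 t = 1 := by simp [tang]

lemma tang_one {θ : ℝ} : tang θ 1 = (1 - sin θ) / cos θ := by simp [tang]

variable {σ σ' b b' t t' : ℝ}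

lemma capR_of_le (h0 : 0 ≤ t) (h1 : t ≤ 1) (h : b ≤ arcsin t) : capR b t = circ t := by
  rw [capR, max_eq_right h, tang_arcsin h0 h1]

lemma circ_le_capR (h0 : 0 ≤ t) (h1 : t ≤ 1) (hb : b < π / 2) : circ t ≤ capR b t := by
  rcases le_total b (arcsin t) with h | h
  · rw [capR_of_le h0 h1 h]
  · rw [capR, max_eq_left h]
    exact circ_le_tang h0 h1 (cos_pos_of ((arcsin_nonneg.2 h0).trans h) hb)

lemma capR_mono (h0 : 0 ≤ t) (h1 : t ≤ 1) (hb' : b' < π / 2) (h : b ≤ b') :
    capR b t ≤ capR b' t := by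
  rcases le_total b' (arcsin t) with hc | hc
  · rw [capR_of_le h0 h1 (h.trans hc), capR_of_le h0 h1 hc]
  · have : max b (arcsin t) ≤ b' := max_le h hc
    rw [capR, capR, max_eq_left hc]
    exact tang_monotoneOn h0 h1 ⟨le_max_right _ _, this.trans_lt hb'⟩ ⟨hc, hb'⟩ this

lemma capR_le (h0 : 0 ≤ t) (h1 : t ≤ 1) (hb0 : 0 ≤ b) (hb : b < π / 2) : capR b t ≤ (cos b)⁻¹ := by
  have hc := cos_pos_of hb0 hb
  rcases le_total b (arcsin t) with h | h
  · rw [capR_of_le h0 h1 h]
    exact circ_le_one.trans ((one_le_inv₀ hc).2 (cos_le_one b))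
  · rw [capR, max_eq_left h, tang, div_le_iff₀ hc, inv_mul_cancel₀ hc.ne']
    nlinarith [sin_nonneg_of_nonneg_of_le_pi hb0 (by linarith [Real.pi_pos])]

lemma capR_antitone (hb0 : 0 ≤ b) (hb : b < π / 2) (h0 : 0 ≤ t) (h : t ≤ t') (h1 : t' ≤ 1) :
    capR b t' ≤ capR b t := by
  have hs : 0 ≤ sin b := sin_nonneg_of_nonneg_of_le_pi hb0 (by linarith [Real.pi_pos])
  have hline : tang b t' ≤ tang b t := by
    rw [tang, tang]
    exact div_le_div_of_nonneg_right (by nlinarith) (cos_pos_of hb0 hb).le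
  have hcirc : circ t' ≤ circ t := Real.sqrt_le_sqrt (by nlinarith)
  rcases le_total b (arcsin t) with h' | h'
  · have h'' : b ≤ arcsin t' := h'.trans (arcsin_le_arcsin h)
    rw [capR_of_le h0 (h.trans h1) h', capR_of_le (h0.trans h) h1 h'']
    exact hcirc
  · rcases le_total b (arcsin t') with h'' | h''
    · rw [capR_of_le (h0.trans h) h1 h'', capR, max_eq_left h']
      exact hcirc.trans (circ_le_tang h0 (h.trans h1) (cos_pos_of hb0 hb))
    · rw [capR, capR, max_eq_left h', max_eq_left h'']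
      exact hline

lemma capL_of_ge (hσ : 0 ≤ σ) (h0 : 0 ≤ t) (h1 : t ≤ 1) (h : arcsin t ≤ σ) : capL σ t = circ t := by
  rw [capL, if_neg hσ.not_gt, min_eq_right h, tang_arcsin h0 h1]

lemma circ_le_capL (h0 : 0 ≤ t) (h1 : t ≤ 1) (hσ : σ < π / 2) : circ t ≤ capL σ t := by
  by_cases hneg : σ < 0
  · rw [capL, if_pos hneg]; linarith [circ_le_one (t := t)]
  · have hs : 0 ≤ σ := not_lt.1 hneg
    rcases le_total (arcsin t) σ with h | h
    · rw [capL_of_ge hs h0 h1 h]
    · rw [capL, if_neg hneg, min_eq_left h]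
      exact circ_le_tang h0 h1 (cos_pos_of hs hσ)

lemma capL_le (h0 : 0 ≤ t) (h1 : t ≤ 1) (hσ0 : 0 ≤ σ) (hσ : σ < π / 2) : capL σ t ≤ 1 := by
  rcases le_total (arcsin t) σ with h | h
  · rw [capL_of_ge hσ0 h0 h1 h]; exact circ_le_one
  · rw [capL, if_neg hσ0.not_gt, min_eq_left h]
    rcases h1.eq_or_lt with rfl | h1'
    · rw [tang_one, div_le_one (cos_pos_of hσ0 hσ)]
      nlinarith [cos_pos_of hσ0 hσ, sin_nonneg_of_nonneg_of_le_pi hσ0 (by linarith [Real.pi_pos]),
        sin_sq_add_cos_sq σ]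
    · rw [← tang_zero t]
      exact tang_antitoneOn h0 h1' ⟨le_rfl, arcsin_nonneg.2 h0⟩ ⟨hσ0, h⟩ hσ0

lemma capL_anti (h0 : 0 ≤ t) (h1 : t ≤ 1) (hσ' : σ' < π / 2) (h : σ ≤ σ') :
    capL σ' t ≤ capL σ t := by
  by_cases hneg : σ' < 0
  · rw [capL, capL, if_pos hneg, if_pos (h.trans_lt hneg)]; linarith
  · by_cases hn : σ < 0
    · have := capL_le h0 h1 (not_lt.1 hneg) hσ'
      rw [show capL σ t = 1 - σ by rw [capL, if_pos hn]]
      linarith
    · have hs := not_lt.1 hn
      rcases h1.eq_or_lt with rfl | h1'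
      · rw [capL, capL, if_neg hneg, if_neg hn, arcsin_one, min_eq_left hσ'.le,
          min_eq_left (h.trans hσ'.le), tang_one, tang_one]
        have c1 := cos_pos_of (hs.trans h) hσ'
        have c2 := cos_pos_of hs (h.trans_lt hσ')
        have s1 : sin σ ≤ sin σ' :=
          sin_le_sin_of_le_of_le_pi_div_two (by linarith [Real.pi_pos]) hσ'.le h
        -- `(1 - sin)/cos = cos/(1 + sin)`
        have e : ∀ x, 0 < cos x → 0 ≤ sin x → (1 - sin x) / cos x = cos x / (1 + sin x) := by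
          intro x hx hx'
          rw [div_eq_div_iff hx.ne' (by linarith)]
          nlinarith [sin_sq_add_cos_sq x]
        have s0 : 0 ≤ sin σ := sin_nonneg_of_nonneg_of_le_pi hs (by linarith [Real.pi_pos])
        rw [e σ' c1 (s0.trans s1), e σ c2 s0]
        exact div_le_div₀ c2.le (cos_le_cos_of_nonneg_of_le_pi hs (by linarith [Real.pi_pos]) h)
          (by linarith) (by linarith)
      · rw [capL, capL, if_neg hneg, if_neg hn]
        exact tang_antitoneOn h0 h1' ⟨le_min hs (arcsin_nonneg.2 h0), min_le_right _ _⟩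
          ⟨le_min (hs.trans h) (arcsin_nonneg.2 h0), min_le_right _ _⟩ (min_le_min_right _ h)

lemma capL_antitone (hσ : σ < π / 2) (h0 : 0 ≤ t) (h : t ≤ t') (h1 : t' ≤ 1) :
    capL σ t' ≤ capL σ t := by
  by_cases hneg : σ < 0
  · rw [capL, capL, if_pos hneg, if_pos hneg]
  · have hs := not_lt.1 hneg
    have hsin : 0 ≤ sin σ := sin_nonneg_of_nonneg_of_le_pi hs (by linarith [Real.pi_pos])
    have hc := cos_pos_of hs hσ
    have hcirc : circ t' ≤ circ t := Real.sqrt_le_sqrt (by nlinarith)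
    rcases le_total (arcsin t') σ with h' | h'
    · rw [capL_of_ge hs (h0.trans h) h1 h', capL_of_ge hs h0 (h.trans h1) ((arcsin_le_arcsin h).trans h')]
      exact hcirc
    · rcases le_total (arcsin t) σ with h'' | h''
      · rw [capL_of_ge hs h0 (h.trans h1) h'', capL, if_neg hneg, min_eq_left h']
        have hts : t ≤ sin σ := by
          rw [← sin_arcsin (by linarith : -1 ≤ t) (h.trans h1)]
          exact sin_le_sin_of_le_of_le_pi_div_two (by linarith [Real.pi_pos, arcsin_nonneg.2 h0])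
            hσ.le h''
        have hst : sin σ ≤ t' := by
          rw [← sin_arcsin (by linarith : -1 ≤ t') h1]
          exact sin_le_sin_of_le_of_le_pi_div_two (by linarith [Real.pi_pos]) (arcsin_le_pi_div_two _) h'
        refine le_trans ?_ (?_ : cos σ ≤ circ t)
        · rw [tang, div_le_iff₀ hc]; nlinarith [sin_sq_add_cos_sq σ]
        · rw [circ, Real.le_sqrt' hc]; nlinarith [sin_sq_add_cos_sq σ]
      · have e1 : capL σ t' = tang σ t' := by rw [capL, if_neg hneg, min_eq_left h']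
        have e2 : capL σ t = tang σ t := by rw [capL, if_neg hneg, min_eq_left h'']
        rw [e1, e2, tang, tang]
        exact div_le_div_of_nonneg_right (by nlinarith) hc.le

lemma circ_le_cap (h0 : 0 ≤ t) (h1 : t ≤ 1) (hσ : σ < π / 2) (hb : b < π / 2) :
    circ t ≤ cap σ b t :=
  le_min (circ_le_capL h0 h1 hσ) (circ_le_capR h0 h1 hb)

lemma cap_eq_circ (h0 : 0 ≤ t) (h1 : t ≤ 1) (hσ0 : 0 ≤ σ) (hσ : σ < π / 2) (hb : b < π / 2)
    (h : b ≤ σ) : cap σ b t = circ t := by
  refine le_antisymm ?_ (circ_le_cap h0 h1 hσ hb)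
  rcases le_total (arcsin t) σ with h' | h'
  · rw [← capL_of_ge hσ0 h0 h1 h']; exact min_le_left _ _
  · rw [← capR_of_le h0 h1 (h.trans h')]; exact min_le_right _ _

lemma cap_zero (h0 : 0 ≤ t) (h1 : t ≤ 1) (hσ : σ < π / 2) : cap σ 0 t = circ t :=
  le_antisymm ((min_le_right _ _).trans_eq (capR_of_le h0 h1 (arcsin_nonneg.2 h0)))
    (circ_le_cap h0 h1 hσ (by positivity))

lemma cap_antitone (hσ : σ < π / 2) (hb0 : 0 ≤ b) (hb : b < π / 2) (h0 : 0 ≤ t) (h : t ≤ t')
    (h1 : t' ≤ 1) : cap σ b t' ≤ cap σ b t :=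
  min_le_min (capL_antitone hσ h0 h h1) (capR_antitone hb0 hb h0 h h1)

lemma cap_le_cap (h0 : 0 ≤ t) (h1 : t ≤ 1) (hσ : σ < π / 2) (hb' : b' < π / 2) (hs : σ' ≤ σ)
    (hb : b ≤ b') : cap σ b t ≤ cap σ' b' t :=
  min_le_min (capL_anti h0 h1 hσ hs) (capR_mono h0 h1 hb' hb)

lemma min_cap (h0 : 0 ≤ t) (h1 : t ≤ 1) (hσ : σ < π / 2) (hσ' : σ' < π / 2) (hb : b < π / 2)
    (hb' : b' < π / 2) :
    min (cap σ b t) (cap σ' b' t) = cap (max σ σ') (min b b') t := by
  have hL : min (capL σ t) (capL σ' t) = capL (max σ σ') t := by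
    rcases le_total σ σ' with h | h
    · rw [max_eq_right h, min_eq_right (capL_anti h0 h1 hσ' h)]
    · rw [max_eq_left h, min_eq_left (capL_anti h0 h1 hσ h)]
  have hR : min (capR b t) (capR b' t) = capR (min b b') t := by
    rcases le_total b b' with h | h
    · rw [min_eq_left h, min_eq_left (capR_mono h0 h1 hb' h)]
    · rw [min_eq_right h, min_eq_right (capR_mono h0 h1 hb h)]
  rw [cap, cap, cap, ← hL, ← hR, min_min_min_comm]

lemma cap_le (h0 : 0 ≤ t) (h1 : t ≤ 1) (hb0 : 0 ≤ b) (hb : b < π / 2) : cap σ b t ≤ (cos b)⁻¹ :=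
  (min_le_right _ _).trans (capR_le h0 h1 hb0 hb)

@[fun_prop]
lemma measurable_cap (σ b : ℝ) : Measurable (cap σ b) := by
  unfold cap capL capR tang
  split_ifs <;> fun_prop

end Vale.Agent.P237.Sharp.OneD3
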