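import Mathlib
import Vale.Agent.P237.Sharp.OneD3.Spec
import Vale.Agent.P237.Sharp.OneD3.Cap

/-!
# P237, sharp route in `ℝ³`: the gap functional

`Φ f = (∫ f)² - ∫ w f² - 4λ/15` vanishes at the quarter circle; `gap f = Φ f - κ(∫ f - π/4)`.
-/

open MeasureTheory Set Real

namespace Vale.Agent.P237.Sharp.OneD3

/-- The weight. -/
noncomputable def wgt (t : ℝ) : ℝ := wA + wB * t ^ 2

/-- The slack kept for the equality case. -/
noncomputable def kap : ℝ := 2 / 5000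

/-- The integral of a profile. -/
noncomputable def J (f : ℝ → ℝ) : ℝ := ∫ t in (0:ℝ)..1, f t

/-- The weighted square integral of a profile. -/
noncomputable def Q (f : ℝ → ℝ) : ℝ := ∫ t in (0:ℝ)..1, wgt t * f t ^ 2

/-- The gap functional. -/
noncomputable def gap (f : ℝ → ℝ) : ℝ := J f ^ 2 - Q f - 4 * lam / 15 - kap * (J f - π / 4)

/-- Admissible cap parameters. -/
def Adm (p : ℝ × ℝ) : Prop :=
  -(17 / 20) ≤ p.1 ∧ p.1 < π / 2 ∧ 0 ≤ p.2 ∧ p.2 < π / 2

/-- The profile of a union of caps. -/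
noncomputable def capSup (S : Finset (ℝ × ℝ)) (t : ℝ) : ℝ :=
  S.fold max (circ t) fun p => cap p.1 p.2 t

/-- Bounded measurable profiles. -/
def Good (f : ℝ → ℝ) : Prop := Measurable f ∧ ∃ M, ∀ t ∈ Icc (0:ℝ) 1, |f t| ≤ M

lemma J_congr {f g : ℝ → ℝ} (h : ∀ t ∈ Icc (0:ℝ) 1, f t = g t) : J f = J g :=
  intervalIntegral.integral_congr (by rwa [uIcc_of_le zero_le_one])

lemma Q_congr {f g : ℝ → ℝ} (h : ∀ t ∈ Icc (0:ℝ) 1, f t = g t) : Q f = Q g :=
  intervalIntegral.integral_congr fun t ht => by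
    simp only [h t (by rwa [uIcc_of_le zero_le_one] at ht)]

lemma gap_congr {f g : ℝ → ℝ} (h : ∀ t ∈ Icc (0:ℝ) 1, f t = g t) : gap f = gap g := by
  rw [gap, gap, J_congr h, Q_congr h]

lemma intervalIntegrable_of_bound {f : ℝ → ℝ} (hf : Measurable f) {M : ℝ}
    (h : ∀ t ∈ Icc (0:ℝ) 1, |f t| ≤ M) : IntervalIntegrable f volume 0 1 := by
  rw [intervalIntegrable_iff_integrableOn_Icc_of_le zero_le_one]
  refine Integrable.of_bound hf.aestronglyMeasurable M ?_
  filter_upwards [ae_restrict_mem measurableSet_Icc] with t ht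
  exact h t ht

@[fun_prop]
lemma measurable_wgt : Measurable wgt := by unfold wgt; fun_prop

@[fun_prop]
lemma continuous_wgt : Continuous wgt := by unfold wgt; fun_prop

lemma Good.int {f : ℝ → ℝ} (hf : Good f) : IntervalIntegrable f volume 0 1 :=
  let ⟨_, hM⟩ := hf.2; intervalIntegrable_of_bound hf.1 hM

lemma Good.int_sq {f : ℝ → ℝ} (hf : Good f) :
    IntervalIntegrable (fun t => wgt t * f t ^ 2) volume 0 1 := by
  obtain ⟨hm, M, hM⟩ := hf
  have h : IntervalIntegrable (fun t => f t ^ 2) volume 0 1 :=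
    intervalIntegrable_of_bound (hm.pow_const 2) (M := M ^ 2) fun t ht => by
      rw [abs_pow]; exact pow_le_pow_left₀ (abs_nonneg _) (hM t ht) 2
  exact h.continuousOn_mul (continuous_wgt.continuousOn)

lemma Good.max {f g : ℝ → ℝ} (hf : Good f) (hg : Good g) : Good fun t => max (f t) (g t) := by
  obtain ⟨hm, M, hM⟩ := hf
  obtain ⟨hm', M', hM'⟩ := hg
  exact ⟨hm.max hm', _, fun t ht =>
    (abs_max_le_max_abs_abs).trans (max_le_max (hM t ht) (hM' t ht))⟩

lemma Good.min {f g : ℝ → ℝ} (hf : Good f) (hg : Good g) : Good fun t => min (f t) (g t) := by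
  obtain ⟨hm, M, hM⟩ := hf
  obtain ⟨hm', M', hM'⟩ := hg
  exact ⟨hm.min hm', _, fun t ht =>
    (abs_min_le_max_abs_abs).trans (max_le_max (hM t ht) (hM' t ht))⟩

lemma good_circ : Good circ :=
  ⟨by unfold circ; fun_prop, 1, fun t _ => by rw [abs_of_nonneg (circ_nonneg t)]; exact circ_le_one⟩

lemma good_cap {p : ℝ × ℝ} (hp : Adm p) : Good (cap p.1 p.2) := by
  refine ⟨measurable_cap _ _, (cos p.2)⁻¹, fun t ht => ?_⟩
  rw [abs_of_nonneg ((circ_nonneg t).trans (circ_le_cap ht.1 ht.2 hp.2.1 hp.2.2.2))]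
  exact cap_le ht.1 ht.2 hp.2.2.1 hp.2.2.2

lemma capSup_empty (t : ℝ) : capSup ∅ t = circ t := rfl

lemma capSup_insert {S : Finset (ℝ × ℝ)} {p : ℝ × ℝ} (h : p ∉ S) (t : ℝ) :
    capSup (insert p S) t = max (cap p.1 p.2 t) (capSup S t) := Finset.fold_insert h

lemma circ_le_capSup (S : Finset (ℝ × ℝ)) (t : ℝ) : circ t ≤ capSup S t :=
  Finset.le_fold_max _ |>.2 (Or.inl le_rfl)

lemma cap_le_capSup {S : Finset (ℝ × ℝ)} {p : ℝ × ℝ} (h : p ∈ S) (t : ℝ) :
    cap p.1 p.2 t ≤ capSup S t :=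
  Finset.le_fold_max _ |>.2 (Or.inr ⟨p, h, le_rfl⟩)

lemma capSup_le {S : Finset (ℝ × ℝ)} {t c : ℝ} (h0 : circ t ≤ c)
    (h : ∀ p ∈ S, cap p.1 p.2 t ≤ c) : capSup S t ≤ c :=
  Finset.fold_max_le _ |>.2 ⟨h0, h⟩

lemma good_capSup {S : Finset (ℝ × ℝ)} (h : ∀ p ∈ S, Adm p) : Good (capSup S) := by
  induction S using Finset.induction with
  | empty => exact good_circ
  | insert p S hp ih =>
    rw [show capSup (insert p S) = fun t => Max.max (cap p.1 p.2 t) (capSup S t) from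
      funext (capSup_insert hp)]
    exact (good_cap (h p (S.mem_insert_self p))).max
      (ih fun q hq => h q (Finset.mem_insert_of_mem hq))

end Vale.Agent.P237.Sharp.OneD3
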