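import Mathlib
import Vale.Agent.P237.Sharp.OneD3.Phi

/-!
# P237, sharp route in `ℝ³`: unions of caps

The gap functional of a union of caps is nonnegative as soon as it is monotone along single caps:
two profiles `A, B` satisfy `gap (max A B) = gap A + gap B - gap (min A B) + 2·(overlap defects)`,
and the overlap of the rightmost cap with the others is again a single cap.
-/

open MeasureTheory Set Real

namespace Vale.Agent.P237.Sharp.OneD3

lemma gap_max {f g : ℝ → ℝ} (hf : Good f) (hg : Good g) :
    gap (fun t => max (f t) (g t)) = gap f + gap g - gap (fun t => min (f t) (g t)) +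
      2 * (J f - J fun t => min (f t) (g t)) * (J g - J fun t => min (f t) (g t)) := by
  have hx := hf.max hg
  have hn := hf.min hg
  have hJ : J (fun t => max (f t) (g t)) = J f + J g - J fun t => min (f t) (g t) := by
    rw [eq_sub_iff_add_eq, J, J, J, J, ← intervalIntegral.integral_add hx.int hn.int,
      ← intervalIntegral.integral_add hf.int hg.int]
    exact intervalIntegral.integral_congr fun t _ => max_add_min _ _
  have hQ : Q (fun t => max (f t) (g t)) = Q f + Q g - Q fun t => min (f t) (g t) := by
    rw [eq_sub_iff_add_eq, Q, Q, Q, Q, ← intervalIntegral.integral_add hx.int_sq hn.int_sq,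
      ← intervalIntegral.integral_add hf.int_sq hg.int_sq]
    refine intervalIntegral.integral_congr fun t _ => ?_
    rcases le_total (f t) (g t) with h | h
    · simp only [max_eq_right h, min_eq_left h]; ring
    · simp only [max_eq_left h, min_eq_right h]
  simp only [gap, hJ, hQ]
  ring

lemma J_mono {f g : ℝ → ℝ} (hf : Good f) (hg : Good g) (h : ∀ t ∈ Icc (0:ℝ) 1, f t ≤ g t) :
    J f ≤ J g :=
  intervalIntegral.integral_mono_on zero_le_one hf.int hg.int h

/-- The area of the quarter disc. -/
lemma J_circ : J circ = π / 4 := by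
  have h := integral_sqrt_one_sub_sq
  rw [← intervalIntegral.integral_add_adjacent_intervals (b := (0:ℝ))] at h
  · have he : (∫ x in (-1:ℝ)..0, √(1 - x ^ 2)) = ∫ x in (0:ℝ)..1, √(1 - x ^ 2) := by
      have := intervalIntegral.integral_comp_neg (a := (0:ℝ)) (b := 1) fun x => √(1 - x ^ 2)
      simpa using this.symm
    rw [he] at h
    show (∫ x in (0:ℝ)..1, √(1 - x ^ 2)) = _
    linarith
  all_goals exact (by fun_prop : Continuous fun x : ℝ => √(1 - x ^ 2)).intervalIntegrable _ _

/-- The quarter circle has gap zero. -/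
lemma gap_circ : gap circ = 0 := by
  have hJ := J_circ
  have hQ : Q circ = 2 / 3 * wA + 2 / 15 * wB := by
    have e : Q circ = ∫ t in (0:ℝ)..1, (wA + (wB - wA) * t ^ 2 - wB * t ^ 4) := by
      refine intervalIntegral.integral_congr fun t ht => ?_
      rw [uIcc_of_le zero_le_one] at ht
      rw [circ, Real.sq_sqrt (by nlinarith [ht.1, ht.2]), wgt]
      ring
    rw [e, intervalIntegral.integral_sub, intervalIntegral.integral_add,
      intervalIntegral.integral_const_mul, intervalIntegral.integral_const_mul, integral_pow,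
      integral_pow, intervalIntegral.integral_const]
    · norm_num; ring
    all_goals exact (by fun_prop : Continuous _).intervalIntegrable _ _
  rw [gap, hJ, hQ, wA, wB, lam]
  ring

/-- Monotonicity along single caps gives nonnegativity of the gap of every union of caps. -/
theorem gap_capSup_nonneg
    (hmono : ∀ σ : ℝ, -(17 / 20) ≤ σ → σ < π / 2 →
      MonotoneOn (fun b => gap (cap σ b)) (Ico 0 (π / 2)))
    (S : Finset (ℝ × ℝ)) (hS : ∀ p ∈ S, Adm p) : 0 ≤ gap (capSup S) := by
  have hpi : (0:ℝ) < π / 2 := by positivity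
  induction S using Finset.strongInduction with
  | H S ih =>
    rcases S.eq_empty_or_nonempty with rfl | hne
    · exact gap_circ.ge
    obtain ⟨n, hn, hnmax⟩ := S.exists_max_image (fun p => p.2) hne
    have hna := hS n hn
    have hSn : capSup S = fun t => max (cap n.1 n.2 t) (capSup (S.erase n) t) := funext fun t => by
      rw [← capSup_insert (Finset.notMem_erase n S), Finset.insert_erase hn]
    rcases (S.erase n).eq_empty_or_nonempty with he | hne'
    · have : gap (capSup S) = gap (cap n.1 n.2) := gap_congr fun t ht => by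
        rw [hSn, he]; exact max_eq_left (circ_le_cap ht.1 ht.2 hna.2.1 hna.2.2.2)
      rw [this]
      have h0 : gap (cap n.1 0) = 0 :=
        (gap_congr fun t ht => cap_zero ht.1 ht.2 hna.2.1).trans gap_circ
      exact h0.ge.trans (hmono n.1 hna.1 hna.2.1 ⟨le_rfl, hpi⟩ ⟨hna.2.2.1, hna.2.2.2⟩ hna.2.2.1)
    obtain ⟨k, hk, hkmax⟩ := (S.erase n).exists_max_image (fun p => p.2) hne'
    have hkS := Finset.mem_of_mem_erase hk
    have hka := hS k hkS
    rcases le_or_gt n.1 k.1 with h | h
    · -- `k` is dominated by `n`
      have : gap (capSup S) = gap (capSup (S.erase k)) := gap_congr fun t ht => by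
        rw [← Finset.insert_erase hkS, capSup_insert (Finset.notMem_erase k S),
          Finset.insert_erase hkS]
        refine max_eq_right ((cap_le_cap ht.1 ht.2 hka.2.1 hna.2.2.2 h (hnmax k hkS)).trans ?_)
        exact cap_le_capSup (Finset.mem_erase.2 ⟨fun e => Finset.ne_of_mem_erase hk e.symm, hn⟩) t
      rw [this]
      exact ih _ (Finset.erase_ssubset hkS) fun p hp => hS p (Finset.mem_of_mem_erase hp)
    · have hmin : ∀ t ∈ Icc (0:ℝ) 1,
          min (cap n.1 n.2 t) (capSup (S.erase n) t) = cap n.1 k.2 t := by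
        intro t ht
        refine le_antisymm ?_ (le_min ?_ ((cap_le_cap ht.1 ht.2 hna.2.1 hka.2.2.2 h.le le_rfl).trans
          (cap_le_capSup hk t)))
        · rcases (Finset.le_fold_max _).1 (le_refl (capSup (S.erase n) t)) with hc | ⟨p, hp, hc⟩
          · exact (min_le_right _ _).trans (hc.trans (circ_le_cap ht.1 ht.2 hna.2.1 hka.2.2.2))
          · have hpa := hS p (Finset.mem_of_mem_erase hp)
            refine (min_le_min_left _ hc).trans ?_
            rw [min_cap ht.1 ht.2 hna.2.1 hpa.2.1 hna.2.2.2 hpa.2.2.2]
            exact cap_le_cap ht.1 ht.2 (max_lt hna.2.1 hpa.2.1) hka.2.2.2 (le_max_left _ _)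
              ((min_le_right _ _).trans (hkmax p hp))
        · exact cap_le_cap ht.1 ht.2 hna.2.1 hna.2.2.2 le_rfl (hnmax k hkS)
      have hB : Good (capSup (S.erase n)) := good_capSup fun p hp => hS p (Finset.mem_of_mem_erase hp)
      have hA : Good (cap n.1 n.2) := good_cap hna
      rw [hSn, gap_max hA hB, gap_congr hmin]
      have h1 : gap (cap n.1 k.2) ≤ gap (cap n.1 n.2) :=
        hmono n.1 hna.1 hna.2.1 ⟨hka.2.2.1, hka.2.2.2⟩ ⟨hna.2.2.1, hna.2.2.2⟩ (hnmax k hkS)
      have h2 := ih _ (Finset.erase_ssubset hn) fun p hp => hS p (Finset.mem_of_mem_erase hp)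
      have h3 := J_mono (hA.min hB) hA fun t _ => min_le_left _ _
      have h4 := J_mono (hA.min hB) hB fun t _ => min_le_right _ _
      linarith [mul_nonneg (sub_nonneg.2 h3) (sub_nonneg.2 h4)]

end Vale.Agent.P237.Sharp.OneD3
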