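import Mathlib
import Vale.Agent.P237.Sharp.Spec3
import Vale.Agent.P237.Sharp.OneD3.Union
import Vale.Agent.P237.Two

/-!
# P237, sharp route in `ℝ³`: `OneD3` from the nonnegativity of the gap on unions of caps

High profiles are covered by the crude inequality `Two.two`; the others are approximated from below
by finite unions of admissible caps, and dominated convergence passes the gap inequality to the
limit. The slack `kap` gives the equality case.
-/

open MeasureTheory Set Real Filter Topology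
open scoped Interval

namespace Vale.Agent.P237.Sharp.OneD3

section

variable {f : ℝ → ℝ} (hf : ConcaveOn ℝ (Icc 0 1) f) (hm : AntitoneOn f (Icc 0 1))
  (hc : ∀ t ∈ Icc (0:ℝ) 1, circ t ≤ f t)

include hf in
/-- A line below a concave function at two points is below it in between. -/
lemma tang_le_between {θ p q s : ℝ} (hp : p ∈ Icc (0:ℝ) 1) (hq : q ∈ Icc (0:ℝ) 1)
    (h1 : tang θ p ≤ f p) (h2 : tang θ q ≤ f q) (hs : s ∈ Icc p q) : tang θ s ≤ f s := by
  rw [← segment_eq_Icc (hs.1.trans hs.2)] at hs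
  obtain ⟨a, c, ha, hc', hac, rfl⟩ := hs
  refine le_trans ?_ ((add_le_add (mul_le_mul_of_nonneg_left h1 ha)
    (mul_le_mul_of_nonneg_left h2 hc')).trans (hf.2 hp hq ha hc' hac))
  refine le_of_eq ?_
  simp only [tang, smul_eq_mul]
  rw [show c = 1 - a by linarith]
  ring

include hc in
lemma tang_sin_le {θ : ℝ} (h0 : 0 ≤ θ) (h : θ < π / 2) : tang θ (sin θ) ≤ f (sin θ) := by
  refine le_trans ?_ (hc _ ⟨sin_nonneg_of_nonneg_of_le_pi h0 (by linarith [Real.pi_pos]),
    sin_le_one θ⟩)
  have h2 : sin θ ≤ 1 := sin_le_one θ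
  have h3 : 0 ≤ sin θ := sin_nonneg_of_nonneg_of_le_pi h0 (by linarith [Real.pi_pos])
  rw [← tang_arcsin h3 h2, arcsin_sin (by linarith [Real.pi_pos]) h.le]

include hf hm hc in
/-- Through every point of the graph goes an admissible cap lying below the graph. -/
lemma exists_cap_below (h0 : f 0 ≤ 37 / 20) {t : ℝ} (ht : t ∈ Ioo (0:ℝ) 1) :
    ∃ p : ℝ × ℝ, Adm p ∧ cap p.1 p.2 t = f t ∧ ∀ s ∈ Icc (0:ℝ) 1, cap p.1 p.2 s ≤ f s := by
  have ht' : t ∈ Icc (0:ℝ) 1 := Ioo_subset_Icc_self ht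
  set y := f t
  have hy : circ t ≤ y := hc t ht'
  have hy0 : y ≤ 37 / 20 := (hm ⟨le_rfl, zero_le_one⟩ ht' ht'.1).trans h0
  set a := arcsin t
  have ha0 : 0 ≤ a := arcsin_nonneg.2 ht'.1
  have ha : a < π / 2 := arcsin_lt_pi_div_two.2 ht.2
  have hca : 0 < cos a := cos_pos_of ha0 ha
  have hsa : sin a = t := sin_arcsin (by linarith [ht.1]) ht'.2
  have hea : cos a = circ t := by rw [cos_arcsin, circ]
  have hφa : 1 - t * sin a - y * cos a ≤ 0 := by
    have e : circ t ^ 2 = 1 - t ^ 2 := Real.sq_sqrt (by nlinarith [ht.1, ht.2])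
    rw [hsa, hea]
    nlinarith [circ_nonneg t]
  set φ : ℝ → ℝ := fun x => 1 - t * sin x - y * cos x with hφ
  have hφc : Continuous φ := by rw [hφ]; fun_prop
  have htang : ∀ x, 0 < cos x → φ x = 0 → tang x t = y := by
    intro x hx h
    rw [tang, div_eq_iff hx.ne']
    simp only [hφ] at h
    linarith
  obtain ⟨b, hb, hb'⟩ := intermediate_value_Icc ha.le hφc.continuousOn
    (show (0:ℝ) ∈ Icc (φ a) (φ (π / 2)) from ⟨hφa, by simp [hφ]; linarith [ht.2]⟩)
  have hb2 : b < π / 2 := by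
    rcases hb.2.eq_or_lt with e | e
    · rw [e] at hb'; simp [hφ] at hb'; linarith [ht.2]
    · exact e
  have hyb : tang b t = y := htang b (cos_pos_of (ha0.trans hb.1) hb2) hb'
  have hR : capR b t = y := by rw [capR, max_eq_left hb.1, hyb]
  obtain ⟨σ, hσ1, hσ2, hL, hcase⟩ : ∃ σ : ℝ, -(17 / 20) ≤ σ ∧ σ < π / 2 ∧ capL σ t = y ∧
      (σ < 0 ∨ 0 ≤ σ ∧ σ ≤ a ∧ tang σ t = y) := by
    rcases lt_or_ge 1 y with h1 | h1
    · refine ⟨1 - y, by linarith, by linarith [Real.pi_pos], ?_, Or.inl (by linarith)⟩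
      rw [capL, if_pos (by linarith)]
      ring
    · obtain ⟨σ, hσ, hσ'⟩ := intermediate_value_Icc' ha0 hφc.continuousOn
        (show (0:ℝ) ∈ Icc (φ a) (φ 0) from ⟨hφa, by simp [hφ]; linarith⟩)
      have hy' : tang σ t = y := htang σ (cos_pos_of hσ.1 (hσ.2.trans_lt ha)) hσ'
      refine ⟨σ, by linarith [hσ.1], hσ.2.trans_lt ha, ?_, Or.inr ⟨hσ.1, hσ.2, hy'⟩⟩
      rw [capL, if_neg hσ.1.not_gt, min_eq_left hσ.2, hy']
  refine ⟨(σ, b), ⟨hσ1, hσ2, ha0.trans hb.1, hb2⟩, by rw [cap, hL, hR, min_self], fun s hs => ?_⟩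
  rcases le_total t s with hts | hts
  · refine (min_le_right _ _).trans ?_
    rcases le_total b (arcsin s) with h | h
    · rw [capR_of_le hs.1 hs.2 h]; exact hc s hs
    · rw [capR, max_eq_left h]
      have hsb : s ≤ sin b := by
        rw [← sin_arcsin (by linarith [hs.1]) hs.2]
        exact sin_le_sin_of_le_of_le_pi_div_two (by linarith [Real.pi_pos, arcsin_nonneg.2 hs.1])
          hb2.le h
      exact tang_le_between hf ht' ⟨hs.1.trans hsb, sin_le_one b⟩ hyb.le
        (tang_sin_le hc (ha0.trans hb.1) hb2) ⟨hts, hsb⟩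
  · refine (min_le_left _ _).trans ?_
    rcases hcase with h | ⟨h1, h2, h3⟩
    · rw [capL, if_pos h]
      rw [capL, if_pos h] at hL
      rw [hL]
      exact hm hs ht' hts
    · rcases le_total (arcsin s) σ with h | h
      · rw [capL_of_ge h1 hs.1 hs.2 h]; exact hc s hs
      · rw [capL, if_neg h1.not_gt, min_eq_left h]
        have hss : sin σ ≤ s := by
          rw [← sin_arcsin (by linarith [hs.1]) hs.2]
          exact sin_le_sin_of_le_of_le_pi_div_two (by linarith [Real.pi_pos])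
            (arcsin_le_pi_div_two s) h
        exact tang_le_between hf
          ⟨sin_nonneg_of_nonneg_of_le_pi h1 (by linarith [Real.pi_pos]), sin_le_one σ⟩ ht'
          (tang_sin_le hc h1 hσ2) h3.le ⟨hss, hts⟩

include hf hm hc in
/-- The gap inequality passes to the limit. -/
lemma gap_nonneg_of_union (h : ∀ S : Finset (ℝ × ℝ), (∀ p ∈ S, Adm p) → 0 ≤ gap (capSup S))
    (h0 : f 0 ≤ 37 / 20) : 0 ≤ gap f := by
  classical
  choose! P hP hPt hPle using fun t (ht : t ∈ Ioo (0:ℝ) 1) => exists_cap_below hf hm hc h0 ht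
  set S : ℕ → Finset (ℝ × ℝ) := fun N => (Finset.Ioo 0 N).image fun i : ℕ => P ((i:ℝ) / N)
  have hgrid : ∀ {N i : ℕ}, 0 < i → i < N → (i:ℝ) / N ∈ Ioo (0:ℝ) 1 := fun {N i} hi hiN => by
    have hN : (0:ℝ) < N := by exact_mod_cast hi.trans hiN
    exact ⟨div_pos (by exact_mod_cast hi) hN, (div_lt_one hN).2 (by exact_mod_cast hiN)⟩
  have hS : ∀ N, ∀ p ∈ S N, Adm p := by
    intro N p hp
    obtain ⟨i, hi, rfl⟩ := Finset.mem_image.1 hp
    rw [Finset.mem_Ioo] at hi
    exact hP _ (hgrid hi.1 hi.2)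
  have hup : ∀ N, ∀ s ∈ Icc (0:ℝ) 1, capSup (S N) s ≤ f s := by
    intro N s hs
    refine capSup_le (hc s hs) fun p hp => ?_
    obtain ⟨i, hi, rfl⟩ := Finset.mem_image.1 hp
    rw [Finset.mem_Ioo] at hi
    exact hPle _ (hgrid hi.1 hi.2) s hs
  have hcont : ContinuousOn f (Ioo 0 1) := by
    have := hf.continuousOn_interior
    rwa [interior_Icc] at this
  have hlim : ∀ s ∈ Ioo (0:ℝ) 1, Tendsto (fun N => capSup (S N) s) atTop (𝓝 (f s)) := by
    intro s hs
    have hg : Tendsto (fun N : ℕ => (⌈s * N⌉₊ : ℝ) / N) atTop (𝓝 s) :=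
      (tendsto_nat_ceil_mul_div_atTop hs.1.le).comp tendsto_natCast_atTop_atTop
    have hfl : Tendsto (fun N : ℕ => f ((⌈s * N⌉₊ : ℝ) / N)) atTop (𝓝 (f s)) :=
      ((hcont.continuousAt (Ioo_mem_nhds hs.1 hs.2)).tendsto).comp hg
    refine tendsto_of_tendsto_of_tendsto_of_le_of_le' hfl tendsto_const_nhds ?_
      (Filter.Eventually.of_forall fun N => hup N s (Ioo_subset_Icc_self hs))
    filter_upwards [hg.eventually (gt_mem_nhds hs.2), eventually_gt_atTop 0] with N hN hN0
    set i := ⌈s * N⌉₊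
    have hN' : (0:ℝ) < N := by exact_mod_cast hN0
    have hi0 : 0 < i := Nat.ceil_pos.2 (mul_pos hs.1 hN')
    have hiN : i < N := by
      rw [div_lt_one hN'] at hN; exact_mod_cast hN
    have hsi : s ≤ (i:ℝ) / N := by
      rw [le_div_iff₀ hN']; exact Nat.le_ceil _
    have hmem : P ((i:ℝ) / N) ∈ S N :=
      Finset.mem_image.2 ⟨i, Finset.mem_Ioo.2 ⟨hi0, hiN⟩, rfl⟩
    have hg' := hgrid hi0 hiN
    have ha := hP _ hg'
    rw [← hPt _ hg']
    exact (cap_antitone ha.2.1 ha.2.2.1 ha.2.2.2 hs.1.le hsi hg'.2.le).trans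
      (cap_le_capSup hmem s)
  have hf0 : ∀ s ∈ Icc (0:ℝ) 1, f s ≤ f 0 := fun s hs => hm ⟨le_rfl, zero_le_one⟩ hs hs.1
  have hae : ∀ᵐ s : ℝ, s ∈ Ι (0:ℝ) 1 → s ∈ Ioo (0:ℝ) 1 := by
    filter_upwards [Measure.ae_ne volume (1:ℝ)] with s hs hI
    rw [uIoc_of_le zero_le_one] at hI
    exact ⟨hI.1, hI.2.lt_of_ne hs⟩
  have hbd : ∀ N, ∀ s ∈ Ι (0:ℝ) 1, 0 ≤ capSup (S N) s ∧ capSup (S N) s ≤ f 0 := fun N s hs => by
    rw [uIoc_of_le zero_le_one] at hs
    exact ⟨(circ_nonneg s).trans (circ_le_capSup _ s),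
      (hup N s (Ioc_subset_Icc_self hs)).trans (hf0 s (Ioc_subset_Icc_self hs))⟩
  have hJ : Tendsto (fun N => J (capSup (S N))) atTop (𝓝 (J f)) := by
    refine intervalIntegral.tendsto_integral_filter_of_dominated_convergence (fun _ => f 0)
      (.of_forall fun N => (good_capSup (hS N)).1.aestronglyMeasurable)
      (.of_forall fun N => .of_forall fun s hs => ?_) intervalIntegrable_const
      (hae.mono fun s hs hI => hlim s (hs hI))
    rw [Real.norm_eq_abs, abs_of_nonneg (hbd N s hs).1]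
    exact (hbd N s hs).2
  have hQ : Tendsto (fun N => Q (capSup (S N))) atTop (𝓝 (Q f)) := by
    refine intervalIntegral.tendsto_integral_filter_of_dominated_convergence
      (fun s => |wgt s| * f 0 ^ 2)
      (.of_forall fun N =>
        (measurable_wgt.mul ((good_capSup (hS N)).1.pow_const 2)).aestronglyMeasurable)
      (.of_forall fun N => .of_forall fun s hs => ?_)
      ((continuous_wgt.abs.mul continuous_const).intervalIntegrable _ _)
      (hae.mono fun s hs hI => ((hlim s (hs hI)).pow 2).const_mul (wgt s))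
    rw [Real.norm_eq_abs, abs_mul, abs_pow]
    gcongr
    rw [abs_of_nonneg (hbd N s hs).1]
    exact (hbd N s hs).2
  exact ge_of_tendsto' ((((hJ.pow 2).sub hQ).sub_const (4 * lam / 15)).sub
    ((hJ.sub_const (π / 4)).const_mul kap)) fun N => h _ (hS N)

end

/-- `OneD3` from the gap inequality for unions of caps. -/
theorem oneD3_of_union (h : ∀ S : Finset (ℝ × ℝ), (∀ p ∈ S, Adm p) → 0 ≤ gap (capSup S)) :
    OneD3 := by
  intro f hf hm hc hmom
  have hnn : ∀ t ∈ Icc (0:ℝ) 1, 0 ≤ f t := fun t ht => (circ_nonneg t).trans (hc t ht)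
  have hu : uIcc (0:ℝ) 1 = Icc 0 1 := uIcc_of_le zero_le_one
  have i1 : IntervalIntegrable f volume 0 1 := (hu ▸ hm).intervalIntegrable
  have i2 : IntervalIntegrable (fun t => f t ^ 2) volume 0 1 :=
    AntitoneOn.intervalIntegrable (hu ▸ fun x hx y hy hxy =>
      pow_le_pow_left₀ (hnn y hy) (hm hx hy hxy) 2)
  have i3 : IntervalIntegrable (fun t => t ^ 2 * f t ^ 2) volume 0 1 :=
    i2.continuousOn_mul (by fun_prop)
  set V := ∫ t in (0:ℝ)..1, f t ^ 2 with hVdef
  set m := ∫ t in (0:ℝ)..1, t ^ 2 * f t ^ 2 with hmdef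
  rcases lt_or_ge (37 / 20) (f 0) with hb | hb
  · -- high profiles
    have hlow : ∀ t ∈ Icc (0:ℝ) 1, f 0 * (1 - t) ≤ f t := by
      intro t ht
      have := hf.2 (show (0:ℝ) ∈ Icc (0:ℝ) 1 from ⟨le_rfl, zero_le_one⟩)
        (show (1:ℝ) ∈ Icc (0:ℝ) 1 from ⟨zero_le_one, le_rfl⟩)
        (show (0:ℝ) ≤ 1 - t by linarith [ht.2]) ht.1 (by ring)
      simp only [smul_eq_mul, mul_zero, mul_one, zero_add] at this
      nlinarith [mul_nonneg ht.1 (hnn 1 ⟨zero_le_one, le_rfl⟩)]
    have hV : f 0 ^ 2 / 3 ≤ V := by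
      have e : ∫ t in (0:ℝ)..1, (f 0 * (1 - t)) ^ 2 = f 0 ^ 2 / 3 := by
        simp only [mul_pow, intervalIntegral.integral_const_mul]
        rw [intervalIntegral.integral_comp_sub_left (fun x => x ^ 2) 1]
        norm_num
        ring
      rw [← e, hVdef]
      exact intervalIntegral.integral_mono_on zero_le_one
        (Continuous.intervalIntegrable (by fun_prop) _ _) i2 fun t ht =>
          pow_le_pow_left₀ (mul_nonneg (hnn 0 ⟨le_rfl, zero_le_one⟩) (by linarith [ht.2]))
            (hlow t ht) 2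
    have hV1 : (1.14 : ℝ) ≤ V := by nlinarith
    have hs : 0.505 * V ≤ √(V * m) := by
      rw [Real.le_sqrt (by positivity) (mul_nonneg (by linarith) (by linarith))]
      nlinarith [mul_le_mul_of_nonneg_left (show V - 4 / 15 ≤ 3 * m by linarith)
        (show (0:ℝ) ≤ V by linarith)]
    have h2 := Two.two zero_lt_one hf hm hnn
    rw [← hVdef, ← hmdef] at h2
    have hlt : 3 * π ^ 2 / 32 * V < (∫ t in (0:ℝ)..1, f t) ^ 2 := by
      have : π ^ 2 < 9.87 := by nlinarith [Real.pi_lt_d4, Real.pi_pos]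
      nlinarith
    exact ⟨hlt.le, fun e => absurd e hlt.ne⟩
  · -- the others
    have hg := gap_nonneg_of_union hf hm hc h hb
    have hQ : Q f = wA * V + wB * m := by
      rw [hVdef, hmdef, ← intervalIntegral.integral_const_mul, ← intervalIntegral.integral_const_mul,
        ← intervalIntegral.integral_add (i2.const_mul wA) (i3.const_mul wB)]
      exact intervalIntegral.integral_congr fun t _ => by simp only [wgt]; ring
    rw [gap, hQ, wA, wB] at hg
    have hJ : π / 4 ≤ J f := by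
      rw [← J_circ]
      exact intervalIntegral.integral_mono_on zero_le_one good_circ.int i1 hc
    have hk : 0 < kap := by norm_num [kap]
    have hl : 0 < lam := by norm_num [lam]
    have hkJ := mul_nonneg hk.le (sub_nonneg.2 hJ)
    have hlm : 0 ≤ lam * (3 * m - V + 4 / 15) := mul_nonneg hl.le (by linarith)
    refine ⟨?_, fun e => ?_⟩
    · show _ ≤ J f ^ 2
      linarith
    · change _ = J f ^ 2 at e
      have h0 : J f = π / 4 := by
        have : kap * (J f - π / 4) = 0 := le_antisymm (by linarith) hkJ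
        rcases mul_eq_zero.1 this with h' | h'
        · exact absurd h' hk.ne'
        · linarith
      have hzero : ∫ t in (0:ℝ)..1, (f t - circ t) = 0 := by
        rw [intervalIntegral.integral_sub i1 good_circ.int]
        change J f - J circ = 0
        rw [J_circ, h0, sub_self]
      rw [intervalIntegral.integral_eq_zero_iff_of_le_of_nonneg_ae zero_le_one ?_
        (i1.sub good_circ.int)] at hzero
      · have hcont : ContinuousOn f (Ioo 0 1) := by
          have := hf.continuousOn_interior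
          rwa [interior_Icc] at this
        have hcc : ContinuousOn circ (Ioo 0 1) :=
          (show Continuous circ by unfold circ; fun_prop).continuousOn
        refine Measure.eqOn_open_of_ae_eq (μ := volume) ?_ isOpen_Ioo hcont hcc
        filter_upwards [ae_restrict_of_ae_restrict_of_subset Ioo_subset_Ioc_self hzero] with t ht
        exact sub_eq_zero.1 ht
      · filter_upwards [ae_restrict_mem measurableSet_Ioc] with t ht
        exact sub_nonneg.2 (hc t (Ioc_subset_Icc_self ht))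

end Vale.Agent.P237.Sharp.OneD3
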