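import Mathlib
import Vale.Agent.P237.Sharp.OneD3.Phi

/-!
# P237, sharp route in `ℝ³`: derivatives of the integrals along a cap

When the right end `b` of a cap moves, the profile changes only on the segment `(tc, sin b)` where
it follows the tangent line at angle `b`.
-/

open MeasureTheory Set Real Filter Topology
open scoped Interval

namespace Vale.Agent.P237.Sharp.OneD3

lemma circ_lt_tang {θ t : ℝ} (h0 : 0 ≤ t) (h1 : t ≤ 1) (hc : 0 < cos θ) (hne : t ≠ sin θ) :
    circ t < tang θ t := by
  rw [tang, lt_div_iff₀ hc, circ]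
  have hu := Real.mul_self_sqrt (show 0 ≤ 1 - t ^ 2 by nlinarith)
  have : 0 < (t - sin θ) ^ 2 := by
    have := sub_ne_zero.2 hne; positivity
  nlinarith [sq_nonneg (√(1 - t ^ 2) - cos θ), sin_sq_add_cos_sq θ]

lemma continuousAt_tang {θ t : ℝ} (hc : cos θ ≠ 0) : ContinuousAt (fun θ => tang θ t) θ :=
  (hasDerivAt_tang hc).continuousAt

/-- The local Lipschitz constant of `b ↦ cap σ b t`. -/
lemma abs_cap_sub_le {σ B t u v : ℝ} (hB : B < π / 2) (h0 : 0 ≤ t) (h1 : t ≤ 1)
    (hu : u ≤ B) (hv : v ≤ B) : |cap σ u t - cap σ v t| ≤ 2 / cos B ^ 2 * |u - v| := by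
  have hC : 0 ≤ 2 / cos B ^ 2 := by positivity
  refine (abs_min_sub_min_le_max _ _ _ _).trans (max_le (by simpa using by positivity) ?_)
  have ha := arcsin_nonneg.2 h0
  rcases le_or_gt B (arcsin t) with h | h
  · rw [capR_of_le h0 h1 (hu.trans h), capR_of_le h0 h1 (hv.trans h), sub_self, abs_zero]
    positivity
  · have hcB := cos_pos_of (ha.trans h.le) hB
    have hd : ∀ θ ∈ Icc (arcsin t) B, ‖(sin θ - t) / cos θ ^ 2‖ ≤ 2 / cos B ^ 2 := by
      intro θ hθ
      have hc := cos_le_cos_of_nonneg_of_le_pi (ha.trans hθ.1) (by linarith [Real.pi_pos]) hθ.2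
      rw [Real.norm_eq_abs, abs_div, abs_of_nonneg (sq_nonneg (cos θ))]
      exact div_le_div₀ (by norm_num)
        (abs_le.2 ⟨by linarith [neg_one_le_sin θ], by linarith [sin_le_one θ]⟩)
        (by positivity) (pow_le_pow_left₀ hcB.le hc 2)
    have key := (convex_Icc (arcsin t) B).norm_image_sub_le_of_norm_hasDerivWithin_le
      (f := fun θ => tang θ t)
      (fun θ hθ => (hasDerivAt_tang (cos_pos_of (ha.trans hθ.1)
        (hθ.2.trans_lt hB)).ne').hasDerivWithinAt)
      hd ⟨le_max_right v _, max_le hv h.le⟩ ⟨le_max_right u _, max_le hu h.le⟩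
    refine key.trans (mul_le_mul_of_nonneg_left ?_ hC)
    exact (abs_max_sub_max_le_max _ _ _ _).trans (by simp)

section
variable {σ b tc : ℝ}

/-- The derivatives of `∫ cap` and `∫ w cap²` with respect to the right end. -/
theorem hasDerivAt_J_Q_cap (hσ : σ < π / 2) (hb0 : 0 ≤ b) (hb : b < π / 2) (htc0 : 0 ≤ tc)
    (htc : tc ≤ sin b) (hin : ∀ t ∈ Ioo tc (sin b), tang b t < capL σ t)
    (hout : ∀ t ∈ Ioo 0 tc, capL σ t < tang b t) :
    HasDerivAt (fun x => J (cap σ x)) (∫ t in tc..sin b, (sin b - t) / cos b ^ 2) b ∧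
      HasDerivAt (fun x => Q (cap σ x))
        (∫ t in tc..sin b, wgt t * (2 * tang b t * ((sin b - t) / cos b ^ 2))) b := by
  set q := sin b with hq
  set B := (b + π / 2) / 2 with hB
  have hbB : b < B := by rw [hB]; linarith
  have hBp : B < π / 2 := by rw [hB]; linarith
  have hq1 : q ≤ 1 := sin_le_one b
  set d : ℝ → ℝ := (Ioc tc q).indicator fun t => (q - t) / cos b ^ 2 with hd
  have hbd : ∀ t ∈ Icc (0:ℝ) 1, ∀ x ≤ B, |cap σ x t| ≤ (cos B)⁻¹ := fun t ht x hx => by
    rw [abs_of_nonneg ((circ_nonneg t).trans (circ_le_cap ht.1 ht.2 hσ (hx.trans_lt hBp)))]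
    exact ((min_le_right _ _).trans (capR_mono ht.1 ht.2 hBp hx)).trans
      (capR_le ht.1 ht.2 (hb0.trans hbB.le) hBp)
  have hmem : ∀ t ∈ Ι (0:ℝ) 1, t ∈ Icc (0:ℝ) 1 := fun t ht => by
    rw [uIoc_of_le zero_le_one] at ht; exact Ioc_subset_Icc_self ht
  -- the pointwise derivative
  have hdiff : ∀ᵐ t, t ∈ Ι (0:ℝ) 1 → HasDerivAt (fun x => cap σ x t) (d t) b := by
    have hnull : ∀ᵐ t : ℝ, t ≠ tc ∧ t ≠ q :=
      (Measure.ae_ne volume tc).and (Measure.ae_ne volume q)
    filter_upwards [hnull] with t htn htI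
    have ht := hmem t htI
    rw [uIoc_of_le zero_le_one] at htI
    rcases lt_or_gt_of_ne htn.2 with htq | htq
    · have harc : arcsin t < b := by
        have := arcsin_lt_arcsin (by linarith [ht.1]) htq hq1
        rwa [hq, arcsin_sin (by linarith [Real.pi_pos]) hb.le] at this
      have hev : ∀ᶠ x in 𝓝 b, arcsin t < x := eventually_gt_nhds harc
      rcases lt_or_gt_of_ne htn.1 with h | h
      · have hlt := hout t ⟨htI.1, h⟩
        have hev2 : ∀ᶠ x in 𝓝 b, capL σ t < tang x t :=
          (continuousAt_tang (cos_pos_of hb0 hb).ne').eventually_const_lt hlt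
        rw [hd, indicator_of_notMem fun hc => absurd hc.1 h.not_gt]
        refine (hasDerivAt_const b (capL σ t)).congr_of_eventuallyEq ?_
        filter_upwards [hev, hev2] with x hx hx2
        rw [cap, capR, max_eq_left hx.le, min_eq_left hx2.le]
      · have hlt := hin t ⟨h, htq⟩
        have hev2 : ∀ᶠ x in 𝓝 b, tang x t < capL σ t :=
          (continuousAt_tang (cos_pos_of hb0 hb).ne').eventually_lt_const hlt
        rw [hd, indicator_of_mem (show t ∈ Ioc tc q from ⟨h, htq.le⟩)]
        refine (hasDerivAt_tang (t := t) (cos_pos_of hb0 hb).ne').congr_of_eventuallyEq ?_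
        filter_upwards [hev, hev2] with x hx hx2
        rw [cap, capR, max_eq_left hx.le, min_eq_right hx2.le]
    · have harc : b < arcsin t := by
        have := arcsin_lt_arcsin (neg_one_le_sin b) htq ht.2
        rwa [arcsin_sin (by linarith [Real.pi_pos]) hb.le] at this
      rw [hd, indicator_of_notMem fun hc => absurd hc.2 htq.not_ge]
      refine (hasDerivAt_const b (min (capL σ t) (circ t))).congr_of_eventuallyEq ?_
      filter_upwards [eventually_lt_nhds harc] with x hx
      rw [cap, capR_of_le ht.1 ht.2 hx.le]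
  have hdm : Measurable d := (by fun_prop : Measurable fun t => (q - t) / cos b ^ 2).indicator
    measurableSet_Ioc
  have hint : ∀ g : ℝ → ℝ, (∫ t in (0:ℝ)..1, (Ioc tc q).indicator g t) = ∫ t in tc..q, g t := by
    intro g
    rw [intervalIntegral.integral_of_le zero_le_one, intervalIntegral.integral_of_le htc,
      setIntegral_indicator measurableSet_Ioc, inter_eq_right.2 (Ioc_subset_Ioc htc0 hq1)]
  have hs : Iio B ∈ 𝓝 b := Iio_mem_nhds hbB
  have hC : 0 ≤ 2 / cos B ^ 2 := by positivity
  have hcap : IntervalIntegrable (cap σ b) volume 0 1 :=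
    intervalIntegrable_of_bound (measurable_cap σ b) fun t ht => hbd t ht b hbB.le
  constructor
  · have h := intervalIntegral.hasDerivAt_integral_of_dominated_loc_of_lip (μ := volume)
      (F := fun x t => cap σ x t) (F' := d) (x₀ := b) (a := (0:ℝ)) (b := 1) hs
      (Eventually.of_forall fun x => (measurable_cap σ x).aestronglyMeasurable)
      hcap hdm.aestronglyMeasurable
      (ae_of_all _ fun t ht => LipschitzOnWith.of_dist_le_mul fun u hu v hv => by
        rw [Real.coe_nnabs, Real.dist_eq, Real.dist_eq, abs_of_nonneg hC]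
        exact abs_cap_sub_le hBp (hmem t ht).1 (hmem t ht).2 (mem_Iio.1 hu).le (mem_Iio.1 hv).le)
      intervalIntegrable_const hdiff
    exact h.2.congr_deriv (hint _)
  · have hM : ∀ t ∈ Icc (0:ℝ) 1, |wgt t| ≤ |wA| + |wB| := fun t ht => by
      refine (abs_add_le _ _).trans (add_le_add le_rfl ?_)
      rw [abs_mul, abs_pow, abs_of_nonneg ht.1]
      exact mul_le_of_le_one_right (abs_nonneg _) (pow_le_one₀ ht.1 ht.2)
    have hcB := cos_pos_of (hb0.trans hbB.le) hBp
    have hQi : IntervalIntegrable (fun t => wgt t * cap σ b t ^ 2) volume 0 1 :=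
      Good.int_sq ⟨measurable_cap σ b, _, fun t ht => hbd t ht b hbB.le⟩
    have h := intervalIntegral.hasDerivAt_integral_of_dominated_loc_of_lip (μ := volume)
      (F := fun x t => wgt t * cap σ x t ^ 2)
      (F' := fun t => wgt t * (2 * cap σ b t * d t))
      (bound := fun _ => (|wA| + |wB|) * (2 * (cos B)⁻¹ * (2 / cos B ^ 2)))
      (x₀ := b) (a := (0:ℝ)) (b := 1) hs
      (Eventually.of_forall fun x => (by fun_prop : Measurable fun t =>
        wgt t * cap σ x t ^ 2).aestronglyMeasurable)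
      hQi (by fun_prop : Measurable fun t => wgt t * (2 * cap σ b t * d t)).aestronglyMeasurable
      (ae_of_all _ fun t ht => LipschitzOnWith.of_dist_le_mul fun u hu v hv => by
        have e : |(|wA| + |wB|) * (2 * (cos B)⁻¹ * (2 / cos B ^ 2))| =
            (|wA| + |wB|) * (2 * (cos B)⁻¹ * (2 / cos B ^ 2)) := abs_of_nonneg (by positivity)
        rw [Real.coe_nnabs, Real.dist_eq, Real.dist_eq, e, ← mul_sub,
          abs_mul, sq_sub_sq, abs_mul, mul_assoc (|wA| + |wB|)]
        refine mul_le_mul (hM t (hmem t ht)) ?_ (by positivity) (by positivity)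
        rw [mul_assoc (2 * (cos B)⁻¹)]
        refine mul_le_mul ((abs_add_le _ _).trans ?_)
          (abs_cap_sub_le hBp (hmem t ht).1 (hmem t ht).2 (mem_Iio.1 hu).le (mem_Iio.1 hv).le)
          (abs_nonneg _) (by positivity)
        linarith [hbd t (hmem t ht) u (mem_Iio.1 hu).le, hbd t (hmem t ht) v (mem_Iio.1 hv).le])
      intervalIntegrable_const
      (hdiff.mono fun t ht htI =>
        ((((ht htI).pow 2).const_mul (wgt t)).congr_deriv (by norm_num)))
    refine h.2.congr_deriv ?_
    have hne : ∀ᵐ t : ℝ, t ≠ q := Measure.ae_ne volume q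
    rw [← hint fun t => wgt t * (2 * tang b t * ((q - t) / cos b ^ 2))]
    refine intervalIntegral.integral_congr_ae ?_
    filter_upwards [hne] with t htne htI
    have ht := hmem t htI
    by_cases hm : t ∈ Ioc tc q
    · rw [hd, indicator_of_mem hm, indicator_of_mem hm]
      have htq : t < q := lt_of_le_of_ne hm.2 htne
      have harc : arcsin t ≤ b := by
        have := arcsin_le_arcsin htq.le
        rwa [hq, arcsin_sin (by linarith [Real.pi_pos]) hb.le] at this
      rw [cap, capR, max_eq_left harc, min_eq_right (hin t ⟨hm.1, htq⟩).le]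
    · rw [hd, indicator_of_notMem hm, indicator_of_notMem hm]; ring

/-- The derivative of `∫ cap` for a segment of length `r`. -/
lemma integral_seg_J {r c : ℝ} (hc : c ≠ 0) (q : ℝ) :
    (∫ t in (q - r * c)..q, (q - t) / c ^ 2) = r ^ 2 / 2 := by
  rw [intervalIntegral.integral_eq_sub_of_hasDerivAt (f := fun t => -((q - t) ^ 2 / (2 * c ^ 2)))
    (fun t _ => ((((hasDerivAt_id t).const_sub q).pow 2).div_const (2 * c ^ 2)).neg.congr_deriv
      (by simp only [id]; field_simp; ring))
    ((by fun_prop : Continuous fun t => (q - t) / c ^ 2).intervalIntegrable _ _)]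
  field_simp
  ring

/-- The derivative of `∫ w cap²` for a segment of length `r`. -/
lemma integral_seg_Q {τ r : ℝ} (hb : cos b ≠ 0) (hc : cc τ = cos b) (hs : ss τ = sin b) :
    (∫ t in (sin b - r * cos b)..sin b, wgt t * (2 * tang b t * ((sin b - t) / cos b ^ 2))) =
      r ^ 2 * qbar τ r := by
  set q := sin b
  set c := cos b
  have hqc : q ^ 2 + c ^ 2 = 1 := sin_sq_add_cos_sq b
  set H : ℝ → ℝ := fun x => wA * (c * x ^ 2 + 2 / 3 * q * x ^ 3) +
    wB * (c * q ^ 2 * x ^ 2 + 2 / 3 * (q ^ 3 - 2 * q * c ^ 2) * x ^ 3 +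
      (c ^ 3 - 2 * q ^ 2 * c) / 2 * x ^ 4 + 2 / 5 * (q * c ^ 2) * x ^ 5) with hH
  have hHd : ∀ x, HasDerivAt H (2 * x * (c + q * x) * (wA + wB * (q - c * x) ^ 2)) x := by
    intro x
    have p : ∀ n : ℕ, HasDerivAt (fun y : ℝ => y ^ n) (n * x ^ (n - 1)) x := fun n =>
      hasDerivAt_pow n x
    have ha := (((p 2).const_mul c).add ((p 3).const_mul (2 / 3 * q))).const_mul wA
    have hb' := ((((p 2).const_mul (c * q ^ 2)).add
      ((p 3).const_mul (2 / 3 * (q ^ 3 - 2 * q * c ^ 2)))).add
      ((p 4).const_mul ((c ^ 3 - 2 * q ^ 2 * c) / 2))).add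
      ((p 5).const_mul (2 / 5 * (q * c ^ 2)))
    refine (ha.add (hb'.const_mul wB)).congr_deriv ?_
    norm_num
    ring
  have hG : ∀ t, HasDerivAt (fun t => -H ((q - t) / c))
      (wgt t * (2 * tang b t * ((q - t) / c ^ 2))) t := by
    intro t
    refine (((hHd ((q - t) / c)).comp t (((hasDerivAt_id t).const_sub q).div_const c)).neg
      ).congr_deriv ?_
    rw [wgt, show tang b t = (1 - t * q) / c from rfl]
    have e1 : q - c * ((q - t) / c) = t := by field_simp; ring
    have e2 : c + q * ((q - t) / c) = (1 - t * q) / c := by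
      rw [eq_div_iff hb, add_mul, mul_assoc, div_mul_cancel₀ _ hb]; linear_combination hqc
    rw [e1, e2]
    field_simp
  rw [intervalIntegral.integral_eq_sub_of_hasDerivAt (fun t _ => hG t)
    ((by unfold wgt tang; fun_prop : Continuous fun t =>
      wgt t * (2 * tang b t * ((q - t) / c ^ 2))).intervalIntegrable _ _)]
  rw [sub_self, zero_div, show (q - (q - r * c)) / c = r by field_simp; ring]
  simp only [hH, qbar, hc, hs]
  ring

end

end Vale.Agent.P237.Sharp.OneD3
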