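import Mathlib
import Vale.Agent.P237.Sharp.OneD3.Deriv
import Vale.Agent.P237.Sharp.OneD3.Union

/-!
# P237, sharp route in `ℝ³`: monotonicity of the gap along single caps

Along a cap the segment on the moving tangent has length `r` and `d gap/db = r²(J - qbar - 1/5000)`.
-/

open MeasureTheory Set Real

namespace Vale.Agent.P237.Sharp.OneD3

variable {σ b : ℝ}

lemma cc_tan_half {b : ℝ} (h : cos (b / 2) ≠ 0) : cc (tan (b / 2)) = cos b := by
  have e : cos b = cos (b / 2) ^ 2 - sin (b / 2) ^ 2 := by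
    rw [← cos_two_mul', show 2 * (b / 2) = b by ring]
  rw [cc, e, tan_eq_sin_div_cos]
  have h1 := sin_sq_add_cos_sq (b / 2)
  field_simp
  rw [add_comm (sin (b / 2) ^ 2)] at h1
  rw [h1, mul_one]

lemma ss_tan_half {b : ℝ} (h : cos (b / 2) ≠ 0) : ss (tan (b / 2)) = sin b := by
  have e : sin b = 2 * sin (b / 2) * cos (b / 2) := by
    rw [← sin_two_mul, show 2 * (b / 2) = b by ring]
  rw [ss, e, tan_eq_sin_div_cos]
  have h1 := sin_sq_add_cos_sq (b / 2)
  field_simp
  rw [add_comm (sin (b / 2) ^ 2)] at h1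
  rw [h1, mul_one]

lemma tan_le_tan_of_le {x y : ℝ} (hx : -(π / 2) < x) (hy : y < π / 2) (h : x ≤ y) : tan x ≤ tan y :=
  strictMonoOn_tan.monotoneOn ⟨hx, h.trans_lt hy⟩ ⟨hx.trans_le h, hy⟩ h

lemma hasDerivAt_tan_sub {m : ℝ} (h : cos m ≠ 0) :
    HasDerivAt (fun x => tan x - x) (tan m ^ 2) m := by
  refine ((hasDerivAt_tan h).sub (hasDerivAt_id m)).congr_deriv ?_
  rw [tan_eq_sin_div_cos]
  field_simp
  linarith [sin_sq_add_cos_sq m]

/-- The derivatives along a cap, for a segment of length `r`. -/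
lemma derivs_cap {r τ : ℝ} (hσ : σ < π / 2) (hb0 : 0 ≤ b) (hb : b < π / 2) (hr : 0 ≤ r)
    (hrc : r * cos b ≤ sin b) (hτ : τ = tan (b / 2))
    (hin : ∀ t ∈ Ioo (sin b - r * cos b) (sin b), tang b t < capL σ t)
    (hout : ∀ t ∈ Ioo 0 (sin b - r * cos b), capL σ t < tang b t) :
    HasDerivAt (fun x => J (cap σ x)) (r ^ 2 / 2) b ∧
      HasDerivAt (fun x => gap (cap σ x)) (r ^ 2 * (J (cap σ b) - qbar τ r - 1 / 5000)) b := by
  have hc := cos_pos_of hb0 hb
  have hh : cos (b / 2) ≠ 0 := (cos_pos_of (by linarith) (by linarith)).ne'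
  obtain ⟨h1, h2⟩ := hasDerivAt_J_Q_cap hσ hb0 hb (sub_nonneg.2 hrc)
    (sub_le_self _ (mul_nonneg hr hc.le)) hin hout
  rw [integral_seg_J hc.ne'] at h1
  rw [integral_seg_Q (τ := τ) hc.ne' (hτ ▸ cc_tan_half hh) (hτ ▸ ss_tan_half hh)] at h2
  refine ⟨h1, ?_⟩
  show HasDerivAt (fun x => J (cap σ x) ^ 2 - Q (cap σ x) - 4 * lam / 15 -
    kap * (J (cap σ x) - π / 4)) _ b
  refine ((((h1.pow 2).sub h2).sub_const (4 * lam / 15)).sub
    ((h1.sub_const (π / 4)).const_mul kap)).congr_deriv ?_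
  rw [kap]
  norm_num
  ring

/-- The left end of the moving segment: the length `r` for `σ ≥ 0`. -/
lemma seg_nonneg (hσ0 : 0 ≤ σ) (hσb : σ < b) (hb : b < π / 2) :
    0 ≤ tan ((b - σ) / 2) ∧
      sin σ ≤ sin b - tan ((b - σ) / 2) * cos b ∧
      (∀ t ∈ Ioo (sin b - tan ((b - σ) / 2) * cos b) (sin b), tang b t < capL σ t) ∧
      ∀ t ∈ Ioo 0 (sin b - tan ((b - σ) / 2) * cos b), capL σ t < tang b t := by
  have hpi := Real.pi_pos
  set m := (b - σ) / 2 with hm
  set r := tan m with hr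
  set q := sin b with hq
  set c := cos b with hc'
  set s := sin σ with hs
  set c₀ := cos σ with hc₀'
  have hσ : σ < π / 2 := hσb.trans hb
  have hc : 0 < c := cos_pos_of (hσ0.trans hσb.le) hb
  have hc₀ : 0 < c₀ := cos_pos_of hσ0 hσ
  have hcm : 0 < cos m := cos_pos_of (by linarith) (by linarith)
  have hr0 : 0 ≤ r := tan_zero ▸ tan_le_tan_of_le (by linarith) (by linarith) (by linarith)
  have hk : 0 < q * c₀ - s * c := by
    rw [mul_comm s c, hq, hc₀', hc', hs, ← sin_sub]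
    exact sin_pos_of_pos_of_lt_pi (by linarith) (by linarith)
  have hid : cos b * cos σ + sin b * sin σ - 1 + r * (sin b * cos σ - cos b * sin σ) = 0 := by
    rw [← cos_sub, ← sin_sub, show b - σ = 2 * m by rw [hm]; ring, sin_two_mul, cos_two_mul, hr,
      tan_eq_sin_div_cos]
    field_simp
    linarith [sin_sq_add_cos_sq m]
  have hqc : q ^ 2 + c ^ 2 = 1 := sin_sq_add_cos_sq b
  have hsc : s ^ 2 + c₀ ^ 2 = 1 := sin_sq_add_cos_sq σ
  -- the two lines cross at `q - r c`
  have hdiff : ∀ t, (1 - t * q) * c₀ - (1 - t * s) * c = (q - r * c - t) * (q * c₀ - s * c) := by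
    intro t
    linear_combination c * hid - c₀ * hqc
  have hts : s ≤ q - r * c := by
    have h1 : 0 ≤ (1 - s * q) * c₀ - (1 - s * s) * c := by
      have : (1 - s * q) * c₀ - (1 - s * s) * c = c₀ * (1 - (c * c₀ + q * s)) := by
        linear_combination c * hsc
      rw [this, hc', hc₀', hq, hs, ← cos_sub]
      exact mul_nonneg hc₀.le (sub_nonneg.2 (cos_le_one _))
    rw [hdiff] at h1
    exact sub_nonneg.1 (nonneg_of_mul_nonneg_left h1 hk)
  have hs0 : 0 ≤ s := sin_nonneg_of_nonneg_of_le_pi hσ0 (by linarith)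
  have hline : ∀ t, sin σ ≤ t → t ≤ 1 → capL σ t = tang σ t := fun t ht ht1 => by
    have harc := arcsin_le_arcsin ht
    rw [arcsin_sin (by linarith) hσ.le] at harc
    rw [capL, if_neg hσ0.not_gt, min_eq_left harc]
  refine ⟨hr0, hts, fun t ht => ?_, fun t ht => ?_⟩
  · rw [hline t (hts.trans ht.1.le) (ht.2.le.trans (sin_le_one b)), tang, tang, div_lt_div_iff₀ hc hc₀]
    nlinarith [hdiff t, mul_pos (sub_pos.2 ht.1) hk]
  · have htq : t < q := ht.2.trans_le (sub_le_self _ (mul_nonneg hr0 hc.le))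
    have ht1 : t ≤ 1 := htq.le.trans (sin_le_one b)
    rcases le_total s t with hst | hst
    · rw [hline t hst ht1, tang, tang, div_lt_div_iff₀ hc₀ hc]
      nlinarith [hdiff t, mul_pos (sub_pos.2 ht.2) hk]
    · have harc := arcsin_le_arcsin hst
      rw [hs, arcsin_sin (by linarith) hσ.le] at harc
      rw [capL_of_ge hσ0 ht.1.le ht1 harc]
      exact circ_lt_tang ht.1.le ht1 hc htq.ne

/-- The segment is empty for `b ≤ σ`. -/
lemma seg_empty (hσ : σ < π / 2) (hb0 : 0 ≤ b) (hbσ : b ≤ σ) :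
    ∀ t ∈ Ioo 0 (sin b - 0 * cos b), capL σ t < tang b t := by
  intro t ht
  rw [zero_mul, sub_zero] at ht
  have hb : b < π / 2 := hbσ.trans_lt hσ
  have ht1 : t ≤ 1 := ht.2.le.trans (sin_le_one b)
  have harc := arcsin_le_arcsin ht.2.le
  rw [arcsin_sin (by linarith [Real.pi_pos]) hb.le] at harc
  rw [capL_of_ge (hb0.trans hbσ) ht.1.le ht1 (harc.trans hbσ)]
  exact circ_lt_tang ht.1.le ht1 (cos_pos_of hb0 hb) ht.2.ne

/-- Caps with `σ < 0`, before the segment reaches the axis. -/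
lemma seg_head (hσ : σ < 0) (hb0 : 0 ≤ b) (hb : b < π / 2) (hy : 1 ≤ (1 - σ) * cos b) :
    ∀ t ∈ Ioo (sin b - tan b * cos b) (sin b), tang b t < capL σ t := by
  intro t ht
  have hc := cos_pos_of hb0 hb
  rw [tan_mul_cos hc.ne', sub_self] at ht
  rw [capL, if_pos hσ, tang, div_lt_iff₀ hc]
  nlinarith [mul_pos ht.1 (ht.1.trans ht.2)]

/-- Caps with `σ < 0`, after the segment has left the axis. -/
lemma seg_flat (hσ : σ < 0) (hb0 : 0 ≤ b) (hb : b < π / 2) (hy : (1 - σ) * cos b ≤ 1) :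
    0 < sin b ∧ tan (b / 2) ≤ (1 - σ - cos b) / sin b ∧
      (1 - σ - cos b) / sin b * cos b ≤ sin b ∧
      cos b + (1 - σ - cos b) / sin b * sin b = 1 - σ ∧
      (∀ t ∈ Ioo (sin b - (1 - σ - cos b) / sin b * cos b) (sin b), tang b t < capL σ t) ∧
      ∀ t ∈ Ioo 0 (sin b - (1 - σ - cos b) / sin b * cos b), capL σ t < tang b t := by
  have hc := cos_pos_of hb0 hb
  have hbpos : 0 < b := by
    rcases hb0.eq_or_lt with rfl | h
    · rw [cos_zero, mul_one] at hy; linarith
    · exact h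
  have hq : 0 < sin b := sin_pos_of_pos_of_lt_pi hbpos (by linarith [Real.pi_pos])
  have hqc := sin_sq_add_cos_sq b
  have htc : sin b - (1 - σ - cos b) / sin b * cos b = (1 - (1 - σ) * cos b) / sin b := by
    rw [eq_div_iff hq.ne']; field_simp; linarith
  refine ⟨hq, ?_, ?_, by field_simp; ring, fun t ht => ?_, fun t ht => ?_⟩
  · rw [le_div_iff₀ hq]
    have h2 : sin b = 2 * sin (b / 2) * cos (b / 2) := by
      rw [← sin_two_mul, show 2 * (b / 2) = b by ring]
    have h3 : cos b = 1 - 2 * sin (b / 2) ^ 2 := by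
      have := cos_two_mul' (b / 2)
      rw [show 2 * (b / 2) = b by ring] at this
      linarith [sin_sq_add_cos_sq (b / 2)]
    have h4 : 0 < cos (b / 2) := cos_pos_of (by linarith) (by linarith)
    rw [h2, h3, tan_eq_sin_div_cos, div_mul_eq_mul_div, div_le_iff₀ h4]
    nlinarith [mul_pos (neg_pos.2 hσ) h4]
  · rw [← sub_nonneg, htc]
    exact div_nonneg (by linarith) hq.le
  · rw [htc] at ht
    rw [capL, if_pos hσ, tang, div_lt_iff₀ hc]
    have := (div_lt_iff₀ hq).1 ht.1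
    linarith
  · rw [htc] at ht
    rw [capL, if_pos hσ, tang, lt_div_iff₀ hc]
    have := (lt_div_iff₀ hq).1 ht.2
    linarith

section
variable (hM : MidIneq) (hH : HeadIneq)
include hM

/-- For `σ ≥ 0` the gap grows along the cap. -/
lemma deriv_gap_pos (hσ0 : 0 ≤ σ) (hσ : σ < π / 2) (hb0 : 0 ≤ b) (hb : b < π / 2) :
    ∃ D, HasDerivAt (fun x => gap (cap σ x)) D b ∧ 0 ≤ D := by
  have hpi := Real.pi_pos
  have hτ1 : tan (b / 2) ≤ 1 :=
    tan_pi_div_four ▸ tan_le_tan_of_le (by linarith) (by linarith) (by linarith)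
  have hτ0 : 0 ≤ tan (b / 2) :=
    tan_zero ▸ tan_le_tan_of_le (by linarith) (by linarith) (by linarith)
  rcases le_or_gt b σ with hbσ | hσb
  · obtain ⟨-, h⟩ := derivs_cap hσ hb0 hb le_rfl
      (by rw [zero_mul]; exact sin_nonneg_of_nonneg_of_le_pi hb0 (by linarith)) rfl
      (fun t ht => by rw [zero_mul, sub_zero] at ht; exact absurd ht.1 ht.2.not_gt)
      (seg_empty hσ hb0 hbσ)
    exact ⟨_, h, by simp⟩
  -- the area of the cap
  have hder : ∀ x, σ ≤ x → x < π / 2 →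
      HasDerivAt (fun x => J (cap σ x)) (tan ((x - σ) / 2) ^ 2 / 2) x := by
    intro x hx hx'
    rcases hx.eq_or_lt with rfl | hx
    · rw [sub_self, zero_div, tan_zero]
      exact (derivs_cap hσ hσ0 hσ le_rfl
        (by rw [zero_mul]; exact sin_nonneg_of_nonneg_of_le_pi hσ0 (by linarith)) rfl
        (fun t ht => by rw [zero_mul, sub_zero] at ht; exact absurd ht.1 ht.2.not_gt)
        (seg_empty hσ hσ0 le_rfl)).1
    · obtain ⟨hr, hts, hi, ho⟩ := seg_nonneg hσ0 hx hx'
      exact (derivs_cap hσ (hσ0.trans hx.le) hx' hr (sub_nonneg.1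
        ((sin_nonneg_of_nonneg_of_le_pi hσ0 (by linarith)).trans hts)) rfl hi ho).1
  have hG : ∀ x ∈ Icc σ b,
      HasDerivAt (fun x => J (cap σ x) - (tan ((x - σ) / 2) - (x - σ) / 2)) 0 x := by
    intro x hx
    have hc : cos ((x - σ) / 2) ≠ 0 :=
      (cos_pos_of (by linarith [hx.1]) (by linarith [hx.2])).ne'
    have h1 := (hasDerivAt_tan_sub hc).comp x (((hasDerivAt_id x).sub_const σ).div_const 2)
    refine ((hder x hx.1 (hx.2.trans_lt hb)).sub h1).congr_deriv ?_
    ring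
  have hJ := constant_of_has_deriv_right_zero
    (fun x hx => (hG x hx).continuousAt.continuousWithinAt)
    (fun x hx => (hG x (Ico_subset_Icc_self hx)).hasDerivWithinAt) b ⟨hσb.le, le_rfl⟩
  simp only [sub_self, zero_div, tan_zero, sub_zero] at hJ
  rw [J_congr (g := circ) fun t ht => cap_eq_circ ht.1 ht.2 hσ0 hσ hσ le_rfl, J_circ] at hJ
  obtain ⟨hr, hts, hi, ho⟩ := seg_nonneg hσ0 hσb hb
  obtain ⟨-, h⟩ := derivs_cap hσ hb0 hb hr (sub_nonneg.1
    ((sin_nonneg_of_nonneg_of_le_pi hσ0 (by linarith)).trans hts)) rfl hi ho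
  have hineq := hM (tan (b / 2)) (tan ((b - σ) / 2)) hr
    (tan_le_tan_of_le (by linarith) (by linarith) (by linarith)) hτ1
  rw [arctan_tan (by linarith) (by linarith)] at hineq
  exact ⟨_, h, mul_nonneg (sq_nonneg _) (by linarith)⟩

omit hM in
include hH in
/-- For `σ < 0` the gap grows along the cap. -/
lemma deriv_gap_neg (hσ0 : σ < 0) (hσl : -(17 / 20) ≤ σ) (hb0 : 0 ≤ b) (hb : b < π / 2) :
    ∃ D, HasDerivAt (fun x => gap (cap σ x)) D b ∧ 0 ≤ D := by
  have hpi := Real.pi_pos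
  have hσ : σ < π / 2 := by linarith
  set y := 1 - σ with hy
  have hy1 : 1 < y := by rw [hy]; linarith
  set b₀ := arccos (1 / y) with hb₀
  have hy0 : 1 / y ∈ Ioo (0:ℝ) 1 := ⟨by positivity, by rw [div_lt_one (by linarith)]; exact hy1⟩
  have hb₀0 : 0 < b₀ := arccos_pos.2 hy0.2
  have hb₀1 : b₀ < π / 2 := arccos_lt_pi_div_two.2 hy0.1
  have hcb₀ : cos b₀ = 1 / y := cos_arccos (by linarith [hy0.1]) hy0.2.le
  have hle : ∀ x, 0 ≤ x → x ≤ b₀ → 1 ≤ y * cos x := fun x hx hx' => by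
    have := cos_le_cos_of_nonneg_of_le_pi hx (by linarith) hx'
    rw [hcb₀, div_le_iff₀ (by linarith)] at this
    linarith
  have hge : ∀ x, b₀ ≤ x → x < π / 2 → y * cos x ≤ 1 := fun x hx hx' => by
    have := cos_le_cos_of_nonneg_of_le_pi hb₀0.le (by linarith) hx
    rw [hcb₀, le_div_iff₀ (by linarith)] at this
    linarith
  have hsin : ∀ x, 0 ≤ x → x < π / 2 → 0 ≤ sin x := fun x hx hx' =>
    sin_nonneg_of_nonneg_of_le_pi hx (by linarith)
  have htan : ∀ x, 0 ≤ x → x < π / 2 → 0 ≤ tan x := fun x hx hx' =>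
    tan_zero ▸ tan_le_tan_of_le (by linarith) hx' hx
  have hd1 : ∀ x, 0 ≤ x → x ≤ b₀ → x < π / 2 →
      HasDerivAt (fun x => J (cap σ x)) (tan x ^ 2 / 2) x ∧
        HasDerivAt (fun x => gap (cap σ x))
          (tan x ^ 2 * (J (cap σ x) - qbar (tan (x / 2)) (tan x) - 1 / 5000)) x := by
    intro x hx hx' hx''
    have hc := (cos_pos_of hx hx'').ne'
    exact derivs_cap hσ hx hx'' (htan x hx hx'') (le_of_eq (tan_mul_cos hc)) rfl
      (seg_head hσ0 hx hx'' (hle x hx hx'))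
      fun t ht => absurd (tan_mul_cos hc ▸ ht.2) (by rw [sub_self]; exact ht.1.not_gt)
  have hJ1 : ∀ x, 0 ≤ x → x ≤ b₀ → J (cap σ x) = π / 4 + (tan x - x) / 2 := by
    intro x hx hx'
    have hG : ∀ z ∈ Icc 0 x, HasDerivAt (fun z => J (cap σ z) - (tan z - z) / 2) 0 z := by
      intro z hz
      have hz' : z < π / 2 := by linarith [hz.2]
      refine ((hd1 z hz.1 (hz.2.trans hx') hz').1.sub
        ((hasDerivAt_tan_sub (cos_pos_of hz.1 hz').ne').div_const 2)).congr_deriv ?_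
      ring
    have h := constant_of_has_deriv_right_zero
      (fun z hz => (hG z hz).continuousAt.continuousWithinAt)
      (fun z hz => (hG z (Ico_subset_Icc_self hz)).hasDerivWithinAt) x ⟨hx, le_rfl⟩
    simp only [tan_zero, sub_self, zero_div, sub_zero] at h
    rw [J_congr (g := circ) fun t ht => cap_zero ht.1 ht.2 hσ, J_circ] at h
    linarith
  have hτ : 0 ≤ tan (b / 2) ∧ tan (b / 2) ≤ 1 := ⟨htan _ (by linarith) (by linarith),
    tan_pi_div_four ▸ tan_le_tan_of_le (by linarith) (by linarith) (by linarith)⟩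
  have hh : cos (b / 2) ≠ 0 := (cos_pos_of (by linarith) (by linarith)).ne'
  have hc := cos_pos_of hb0 hb
  rcases le_or_gt b b₀ with hbb | hbb
  · refine ⟨_, (hd1 b hb0 hbb hb).2, ?_⟩
    have heq : cos b + tan b * sin b = (cos b)⁻¹ := by
      rw [tan_eq_sin_div_cos]; field_simp; linarith [sin_sq_add_cos_sq b]
    have h := hH (tan (b / 2)) (tan b) hτ.1 hτ.2
      (tan_le_tan_of_le (by linarith) hb (by linarith))
      (by rw [cc_tan_half hh, ss_tan_half hh, tan_mul_cos hc.ne'])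
      (by
        rw [cc_tan_half hh, ss_tan_half hh, heq, inv_le_iff_one_le_mul₀ hc]
        nlinarith [hle b hb0 hbb, hy])
    rw [cc_tan_half hh, ss_tan_half hh, tan_mul_cos hc.ne', sub_self, mul_zero, zero_add,
      arctan_tan (by linarith) (by linarith)] at h
    rw [hJ1 b hb0 hbb]
    exact mul_nonneg (sq_nonneg _) (by linarith)
  · -- after the segment has left the axis
    have hd2 : ∀ x, b₀ ≤ x → x < π / 2 →
        HasDerivAt (fun x => J (cap σ x)) (((y - cos x) / sin x) ^ 2 / 2) x ∧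
          HasDerivAt (fun x => gap (cap σ x)) (((y - cos x) / sin x) ^ 2 *
            (J (cap σ x) - qbar (tan (x / 2)) ((y - cos x) / sin x) - 1 / 5000)) x := by
      intro x hx hx'
      have hx0 := hb₀0.le.trans hx
      obtain ⟨-, hrτ, hrc, -, hi, ho⟩ := seg_flat hσ0 hx0 hx' (hge x hx hx')
      exact derivs_cap hσ hx0 hx' ((htan _ (by linarith) (by linarith)).trans hrτ) hrc rfl hi ho
    have hG : ∀ x ∈ Icc b₀ b, HasDerivAt
        (fun x => J (cap σ x) - ((2 * y - (y ^ 2 + 1) * cos x) / sin x - x) / 2) 0 x := by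
      intro x hx
      have hx' := hx.2.trans_lt hb
      have hq : sin x ≠ 0 :=
        (sin_pos_of_pos_of_lt_pi (hb₀0.trans_le hx.1) (by linarith)).ne'
      have h1 := (((((hasDerivAt_cos x).const_mul (y ^ 2 + 1)).const_sub (2 * y)).div
        (hasDerivAt_sin x) hq).sub (hasDerivAt_id x)).div_const 2
      refine ((hd2 x hx.1 hx').1.sub h1).congr_deriv ?_
      field_simp
      linear_combination (-(y ^ 2)) * sin_sq_add_cos_sq x
    have h0 := constant_of_has_deriv_right_zero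
      (fun x hx => (hG x hx).continuousAt.continuousWithinAt)
      (fun x hx => (hG x (Ico_subset_Icc_self hx)).hasDerivWithinAt) b ⟨hbb.le, le_rfl⟩
    simp only [hJ1 b₀ hb₀0.le le_rfl] at h0
    have hs₀ : 0 < sin b₀ := sin_pos_of_pos_of_lt_pi hb₀0 (by linarith)
    have e0 : (2 * y - (y ^ 2 + 1) * cos b₀) / sin b₀ = tan b₀ := by
      rw [tan_eq_sin_div_cos, hcb₀]
      have := sin_sq_add_cos_sq b₀
      rw [hcb₀] at this
      field_simp at this ⊢
      linarith
    rw [e0] at h0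
    obtain ⟨hq, hrτ, hrc, hyr, -, -⟩ := seg_flat hσ0 hb0 hb (hge b hbb.le hb)
    rw [← hy] at hrτ hrc hyr
    refine ⟨_, (hd2 b hbb.le hb).2, ?_⟩
    have h := hH (tan (b / 2)) ((y - cos b) / sin b) hτ.1 hτ.2 hrτ
      (by rwa [cc_tan_half hh, ss_tan_half hh])
      (by rw [cc_tan_half hh, ss_tan_half hh, hyr, hy]; linarith)
    rw [cc_tan_half hh, ss_tan_half hh, hyr, arctan_tan (by linarith) (by linarith)] at h
    have e1 : y * (sin b - (y - cos b) / sin b * cos b) + (y - cos b) / sin b =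
        (2 * y - (y ^ 2 + 1) * cos b) / sin b := by
      field_simp
      linear_combination y * sin_sq_add_cos_sq b
    rw [e1] at h
    exact mul_nonneg (sq_nonneg _) (by linarith)

include hH in
/-- The gap grows along every admissible cap. -/
theorem gap_cap_monotoneOn (hσl : -(17 / 20) ≤ σ) (hσ : σ < π / 2) :
    MonotoneOn (fun b => gap (cap σ b)) (Ico 0 (π / 2)) := by
  have hex : ∀ x ∈ Ico 0 (π / 2), ∃ D, HasDerivAt (fun x => gap (cap σ x)) D x ∧ 0 ≤ D := by
    intro x hx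
    rcases lt_or_ge σ 0 with h | h
    · exact deriv_gap_neg hH h hσl hx.1 hx.2
    · exact deriv_gap_pos hM h hσ hx.1 hx.2
  choose! D hD hD0 using hex
  exact monotoneOn_of_hasDerivWithinAt_nonneg (convex_Ico _ _)
    (fun x hx => (hD x hx).continuousAt.continuousWithinAt)
    (fun x hx => (hD x (interior_subset hx)).hasDerivWithinAt)
    fun x hx => hD0 x (interior_subset hx)

include hH in
/-- The gap of every admissible union of caps is nonnegative. -/
theorem gap_capSup_nonneg_of (S : Finset (ℝ × ℝ)) (hS : ∀ p ∈ S, Adm p) : 0 ≤ gap (capSup S) :=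
  gap_capSup_nonneg (fun _ h h' => gap_cap_monotoneOn hM hH h h') S hS

end

end Vale.Agent.P237.Sharp.OneD3
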