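import Mathlib
import Vale.Agent.P237.Sharp.OneD3.Ineq
import Vale.Agent.P237.Sharp.OneD3.Mono
import Vale.Agent.P237.Sharp.OneD3.Limit

/-!
# P237, sharp route in `ℝ³`: the one-dimensional inequality
-/

namespace Vale.Agent.P237.Sharp.OneD3

/-- The weighted one-dimensional inequality behind Petty's inequality in `ℝ³`. -/
theorem oneD3 : Sharp.OneD3 :=
  oneD3_of_union (gap_capSup_nonneg_of midIneq headIneq)

end Vale.Agent.P237.Sharp.OneD3
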